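import Crest.Agent.X261.E0.Defs
import Crest.Agent.R273.Sg2_101
import Mathlib.Algebra.MvPolynomial.Funext
import Mathlib.Analysis.Calculus.InverseFunctionTheorem.FDeriv

/-!
# X261 (S0399), E0 (helper5): the lower bound `h0 (L ^ m) ≥ c m ^ p`

* `low_of_aInd`  : `p + 1` algebraically independent sections of `L ^ m` give `Low L p`;
* `aInd_of_rank` : sections whose Wronskian forms are independent at a point are independent.
-/

set_option autoImplicit false
set_option linter.unusedSectionVars false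

open Set Filter Topology Complex Matrix

namespace Crest.Agent.X261.E0

open Crest.Agent.R275.Geo Crest.Agent.R275.Core144
open Crest.Agent.R275.OmT75 (dl dj)
open Crest.Agent.R273.Sg2_101 (exists_net exists_Bd fin_HS hs_diff)

noncomputable section

variable {n : ℕ} {M : Type} [TopologicalSpace M] {A : Atl n M}

namespace Lw

theorem pow_g (L : LB A) (k : ℕ) (i j : A.ι) (x : M) : (L ^ k).g i j x = L.g i j x ^ k := by
  induction k with
  | zero => rw [pow_zero, pow_zero]; rfl
  | succ k ih => rw [pow_succ, pow_succ, LB.mul_g, ih]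

theorem fin_hs [CompactSpace M] [T2Space M] (L : LB A) : Module.Finite ℂ (HS L univ) := by
  obtain ⟨T⟩ := exists_net A
  obtain ⟨c, hc⟩ := exists_Bd T L
  exact fin_HS hc

theorem eval_smul {κ : Type} [Fintype κ] {P : MvPolynomial κ ℂ} {d : ℕ} (hP : P.IsHomogeneous d)
    (t : ℂ) (v : κ → ℂ) : MvPolynomial.eval (t • v) P = t ^ d * MvPolynomial.eval v P := by
  rw [MvPolynomial.eval_eq', MvPolynomial.eval_eq', Finset.mul_sum]
  refine Finset.sum_congr rfl fun a ha => ?_
  have h1 : ∑ k, a k = d := by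
    rw [← Finsupp.degree_eq_sum, Finsupp.degree_eq_weight_one]
    exact hP (MvPolynomial.mem_support_iff.1 ha)
  simp only [Pi.smul_apply, smul_eq_mul, mul_pow, Finset.prod_mul_distrib,
    Finset.prod_pow_eq_pow_sum, h1]
  ring

/-- a homogeneous polynomial of positive degree in sections is a section -/
theorem isHS_eval {κ : Type} [Fintype κ] {N : LB A} {s : κ → A.ι → M → ℂ}
    (hs : ∀ k, IsHS N univ (s k)) {P : MvPolynomial κ ℂ} {d : ℕ} (hP : P.IsHomogeneous d)
    (hd : 0 < d) : IsHS (N ^ d) univ fun i x => MvPolynomial.eval (fun k => s k i x) P := by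
  refine ⟨fun i => ?_, fun i x hx => ?_, fun i j x hx _ => ?_⟩
  · simp only [MvPolynomial.eval_eq']
    exact HolAt.sum _ fun a _ => (HolAt.prod _ fun k _ => ((hs k).hol i).pow _).const_mul _
  · have e : (fun k => s k i x) = (0 : ℂ) • fun k => s k i x :=
      funext fun k => by simp [(hs k).off i x hx]
    rw [e, eval_smul hP, zero_pow hd.ne', zero_mul]
  · have e : (fun k => s k i x) = N.g i j x • fun k => s k j x :=
      funext fun k => (hs k).tr i j x hx (mem_univ _)
    rw [e, eval_smul hP, pow_g]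

theorem dj_hol {f : Cn n → ℂ} {z : Cn n} (hf : DifferentiableAt ℂ f z) (a : Fin n) :
    dj a f z = fderiv ℂ f z (EuclideanSpace.single a 1) := by
  have h3 : (EuclideanSpace.single a I : Cn n) = I • EuclideanSpace.single a (1 : ℂ) := by
    ext b
    by_cases hb : b = a <;> simp [hb]
  unfold dj
  rw [hf.fderiv_restrictScalars ℝ, h3]
  simp only [ContinuousLinearMap.coe_restrictScalars', map_smul, smul_eq_mul]
  linear_combination (-(1 / 2 : ℂ) * fderiv ℂ f z (EuclideanSpace.single a 1)) * I_mul_I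

/-- a polynomial which vanishes near a point is zero -/
theorem eq_zero_of_nhds {κ : Type} [Finite κ] {P : MvPolynomial κ ℂ} {v : κ → ℂ}
    (h : ∀ᶠ w in 𝓝 v, MvPolynomial.eval w P = 0) : P = 0 := by
  rw [nhds_pi] at h
  obtain ⟨I, -, t, ht, h1⟩ := mem_pi.1 h
  refine MvPolynomial.funext_set t (fun k => infinite_of_mem_nhds _ (ht k)) fun w hw => ?_
  rw [map_zero]
  exact h1 fun k _ => hw k (mem_univ _)

end Lw

open Lw

theorem low_of_aInd [CompactSpace M] [T2Space M] {L : LB A} {p m : ℕ} (hm : 0 < m)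
    (s : Fin (p + 1) → A.ι → M → ℂ) (hs : ∀ k, IsHS (L ^ m) univ (s k)) (h : AInd A s) :
    Low L p := by
  classical
  refine ⟨1 / ((m : ℝ) * (p + 1)) ^ p, by positivity, fun d => ⟨m * ((p + 1) * d + 1), ?_, ?_⟩⟩
  · nlinarith [Nat.zero_le (p * d), Nat.zero_le (m * p * d), Nat.le_mul_of_pos_left d hm]
  set D := (p + 1) * d + 1 with hD
  let ex : (Fin p → Fin (d + 1)) → Fin (p + 1) →₀ ℕ := fun a =>
    Finsupp.equivFunOnFinite.symm (Fin.cons (D - ∑ k, (a k : ℕ)) fun k => (a k : ℕ))
  have hinj : Function.Injective ex := fun a b hab => funext fun k => Fin.ext (by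
    simpa [ex] using congrArg (fun f => f k.succ) hab)
  have hdeg : ∀ a, (ex a).degree = D := fun a => by
    have h1 : ∑ k, (a k : ℕ) ≤ p * d := by
      simpa using Finset.sum_le_card_nsmul Finset.univ (fun k => (a k : ℕ)) d
        fun k _ => Nat.lt_succ_iff.1 (a k).2
    rw [Finsupp.degree_eq_sum, Fin.sum_univ_succ]
    simp only [ex, Finsupp.equivFunOnFinite_symm_apply_apply, Fin.cons_zero, Fin.cons_succ]
    have h2 : p * d ≤ D := by rw [hD]; nlinarith [Nat.zero_le d]
    omega
  have hh : ∀ a, (MvPolynomial.monomial (ex a) (1 : ℂ)).IsHomogeneous D := fun a =>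
    MvPolynomial.isHomogeneous_monomial _ (hdeg a)
  let T : (Fin p → Fin (d + 1)) → HS (L ^ (m * D)) univ := fun a =>
    ⟨fun i x => MvPolynomial.eval (fun k => s k i x) (MvPolynomial.monomial (ex a) 1), by
      rw [pow_mul]; exact isHS_eval hs (hh a) (Nat.succ_pos _)⟩
  have hli : LinearIndependent ℂ T := by
    rw [Fintype.linearIndependent_iff]
    intro c hc
    have h1 := h D (∑ a, c a • MvPolynomial.monomial (ex a) 1)
      ((MvPolynomial.homogeneousSubmodule _ ℂ D).sum_mem fun a _ =>
        Submodule.smul_mem _ _ (hh a)) fun i x _ => by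
        have h2 := congrFun (congrFun (congrArg Subtype.val hc) i) x
        simpa [T, map_sum, Finset.sum_apply, MvPolynomial.smul_eval] using h2
    have h2 := ((MvPolynomial.basisMonomials (Fin (p + 1)) ℂ).linearIndependent.comp ex hinj)
    rw [Fintype.linearIndependent_iff] at h2
    exact h2 c (by simpa using h1)
  have := fin_hs (L ^ (m * D))
  have h1 := hli.fintype_card_le_finrank
  rw [Fintype.card_fun, Fintype.card_fin, Fintype.card_fin] at h1
  have h2 : ((d + 1 : ℕ) : ℝ) ^ p ≤ (h0 (L ^ (m * D)) : ℝ) := by exact_mod_cast h1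
  refine le_trans ?_ h2
  rw [one_div, inv_mul_le_iff₀ (by positivity), ← mul_pow]
  refine pow_le_pow_left₀ (by positivity) ?_ p
  rw [hD]
  push_cast
  have h3 : (0 : ℝ) ≤ m * p := by positivity
  nlinarith

theorem aInd_of_rank {N : LB A} {p : ℕ} {s : Fin (p + 1) → A.ι → M → ℂ}
    (hs : ∀ k, IsHS N univ (s k)) {i : A.ι} {x : M} (hx : x ∈ (A.e i).source)
    (hli : LinearIndependent ℂ fun k : Fin p => Wr A (s k.succ) (s 0) i x) (hp : 1 ≤ p) :
    AInd A s := by
  intro d P hP h0
  set z := A.e i x with hz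
  have hzt : (A.e i).target ∈ 𝓝 z := (A.e i).open_target.mem_nhds ((A.e i).map_source hx)
  let f : Fin (p + 1) → Cn n → ℂ := fun k w => s k i ((A.e i).symm w)
  have hfz : ∀ k, f k z = s k i x := fun k => by simp only [f, hz, (A.e i).left_inv hx]
  have han : ∀ k, AnalyticAt ℂ (f k) z := fun k =>
    Crest.Agent.R266.SCV.analyticOnNhd_of_differentiableOn (A.e i).open_target (hs_diff (hs k) i) _
      ((A.e i).map_source hx)
  have hW : ∀ k a, Wr A (s k) (s 0) i x a = f 0 z * fderiv ℂ (f k) z (EuclideanSpace.single a 1) -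
      f k z * fderiv ℂ (f 0) z (EuclideanSpace.single a 1) := fun k a => by
    rw [← dj_hol (han k).differentiableAt, ← dj_hol (han 0).differentiableAt, hfz, hfz]
    rfl
  let Φ : ℂ × Cn n → Fin (p + 1) → ℂ := fun q k => q.1 * f k q.2
  have hΦ : HasStrictFDerivAt Φ (ContinuousLinearMap.pi fun k =>
      (1 : ℂ) • (fderiv ℂ (f k) z).comp (ContinuousLinearMap.snd ℂ ℂ (Cn n)) +
        f k z • ContinuousLinearMap.fst ℂ ℂ (Cn n)) (1, z) :=
    hasStrictFDerivAt_pi.2 fun k => (hasStrictFDerivAt_fst (p := ((1 : ℂ), z))).mul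
      (HasStrictFDerivAt.comp ((1 : ℂ), z) (g := f k) (han k).hasStrictFDerivAt
        hasStrictFDerivAt_snd)
  have hmap := hΦ.map_nhds_eq_of_surj (by
    by_contra hne
    obtain ⟨l, hl0, hl⟩ := Submodule.exists_le_ker_of_lt_top _ (lt_top_iff_ne_top.2 hne)
    set c : Fin (p + 1) → ℂ := fun k => l fun j => if k = j then 1 else 0 with hc
    have hl' : ∀ q : ℂ × Cn n, ∑ k, (fderiv ℂ (f k) z q.2 + f k z * q.1) * c k = 0 := fun q => by
      have h1 : l _ = 0 := hl ⟨q, rfl⟩
      rw [LinearMap.pi_apply_eq_sum_univ] at h1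
      simpa using h1
    have a1 : c 0 * f 0 z + ∑ k : Fin p, c k.succ * f k.succ z = 0 := by
      simpa [Fin.sum_univ_succ, mul_comm] using hl' (1, 0)
    have a2 : ∀ a, c 0 * fderiv ℂ (f 0) z (EuclideanSpace.single a 1) +
        ∑ k : Fin p, c k.succ * fderiv ℂ (f k.succ) z (EuclideanSpace.single a 1) = 0 := fun a => by
      simpa [Fin.sum_univ_succ, mul_comm] using hl' (0, EuclideanSpace.single a 1)
    have a3 : ∀ k : Fin p, c k.succ = 0 := Fintype.linearIndependent_iff.1 hli _ (funext fun a => by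
      simp only [Finset.sum_apply, Pi.smul_apply, smul_eq_mul, hW, Pi.zero_apply, mul_sub,
        Finset.sum_sub_distrib]
      have e1 : ∑ k : Fin p, c k.succ * (f 0 z * fderiv ℂ (f k.succ) z (EuclideanSpace.single a 1)) =
          f 0 z * ∑ k : Fin p, c k.succ * fderiv ℂ (f k.succ) z (EuclideanSpace.single a 1) := by
        rw [Finset.mul_sum]; exact Finset.sum_congr rfl fun k _ => by ring
      have e2 : ∑ k : Fin p, c k.succ * (f k.succ z * fderiv ℂ (f 0) z (EuclideanSpace.single a 1)) =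
          (∑ k : Fin p, c k.succ * f k.succ z) * fderiv ℂ (f 0) z (EuclideanSpace.single a 1) := by
        rw [Finset.sum_mul]; exact Finset.sum_congr rfl fun k _ => by ring
      rw [e1, e2]
      linear_combination f 0 z * a2 a - fderiv ℂ (f 0) z (EuclideanSpace.single a 1) * a1)
    simp only [a3, zero_mul, Finset.sum_const_zero, add_zero] at a1 a2
    have a4 : c 0 = 0 := by
      by_contra h1
      refine hli.ne_zero ⟨0, hp⟩ (funext fun a => ?_)
      rw [hW, (mul_eq_zero.1 a1).resolve_left h1, (mul_eq_zero.1 (a2 a)).resolve_left h1]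
      simp
    refine hl0 (LinearMap.ext fun v => ?_)
    rw [LinearMap.pi_apply_eq_sum_univ]
    refine Finset.sum_eq_zero fun k _ => ?_
    have a5 : c k = 0 := Fin.cases a4 a3 k
    rw [show (l fun j => if k = j then 1 else 0) = 0 from a5, smul_zero])
  refine eq_zero_of_nhds (v := Φ (1, z)) ?_
  rw [← hmap, eventually_map]
  filter_upwards [continuous_snd.continuousAt.eventually (show ∀ᶠ w in 𝓝 ((1 : ℂ), z).2,
    w ∈ (A.e i).target from hzt)] with q hq
  have e : Φ q = q.1 • fun k => s k i ((A.e i).symm q.2) := rfl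
  rw [e, eval_smul hP, h0 i _ ((A.e i).map_target hq), mul_zero]

/-- both steps -/
theorem low_of_rank [CompactSpace M] [T2Space M] {L : LB A} {p m : ℕ} (hm : 0 < m) (hp : 1 ≤ p)
    (s : Fin (p + 1) → A.ι → M → ℂ) (hs : ∀ k, IsHS (L ^ m) univ (s k)) {i : A.ι} {x : M}
    (hx : x ∈ (A.e i).source)
    (hli : LinearIndependent ℂ fun k : Fin p => Wr A (s k.succ) (s 0) i x) : Low L p :=
  low_of_aInd hm s hs (aInd_of_rank hs hx hli hp)

end

end Crest.Agent.X261.E0
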