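import Crest.Agent.X261.E0.BrA
import Crest.Agent.X261.Cov.A

/-!
# X261 (S0399), E0/Bridge (helper36): from the atlas form to the frozen statement

* `toL W L`            : the frozen line bundle of `L : LB B`; `h0_toL`;
* `toF`                : the frozen twisted form of `e`; `twisted_toF`, `toF_ne`;
* `special_of_frozen`  : the frozen hypothesis `hspecial` gives `Special A`;
* `MainStmt`, `of_main`: the atlas form implies the text of S0399.
-/

set_option autoImplicit false
set_option linter.unusedSectionVars false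

open Set Filter Topology Complex Matrix
open scoped ContDiff Manifold

namespace Crest.Agent.X261.E0

open Crest.Agent.R275.Geo Crest.Agent.R275.Core144 Crest.Agent.R275.GC293
open Crest.Agent.R273.Fock_243 Crest.Agent.R273.Kah_333 Crest.Agent.R273.UCov_914
open Crest.Agent.R281.DicA_273
open Crest.Agent.R281.DicB_273 (bs mx pb pb_apply pb_comp)
open Crest.CxGeometry (Form chartRep HolLineBundle IsKaehler)

noncomputable section

universe u

namespace Br

variable {n : ℕ} {X : Type u} [TopologicalSpace X] [ChartedSpace (Cn n) X]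
  [IsManifold 𝓘(ℂ, Cn n) ω X] {M : Type} [TopologicalSpace M] {A B : Atl n M} {g : M ≃ₜ X}

/-- the frozen line bundle -/
@[reducible] def toL (W : Wk B g) (L : LB B) : HolLineBundle n X where
  ι := B.ι
  U j := g.symm ⁻¹' (B.e j).source
  isOpen_U j := (B.e j).open_source.preimage g.symm.continuous
  covers y := B.cover (g.symm y)
  g i j y := L.g i j (g.symm y)
  g_hol i j := W.isHol (B.e j).open_source (L.hol i j)
  g_ne_zero i j _ _ := L.ne_zero i j _
  cocycle i j k _ hy := (L.mul i j k _ hy).symm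

theorem lb_pow_g (L : LB B) (k : ℕ) (i j : B.ι) (x : M) : (L ^ k).g i j x = L.g i j x ^ k := by
  induction k with
  | zero => rw [pow_zero, pow_zero]; rfl
  | succ k ih => rw [pow_succ, pow_succ, LB.mul_g, ih]

theorem sec_iff (W : Wk B g) (L : LB B) (m : ℕ) (s : B.ι → M → ℂ) :
    (toL W L).IsSectionFamily (m : ℤ) (fun i y => s i (g.symm y)) ↔ IsHS (L ^ m) univ s := by
  constructor
  · rintro ⟨h1, h2, h3⟩
    refine ⟨fun i => W.holAt (h1 i), fun i x hx => ?_, fun i j x hx _ => ?_⟩
    · have h4 := h2 i (g x) (by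
        show g.symm (g x) ∉ (B.e i).source
        rwa [g.symm_apply_apply])
      simpa using h4
    · have h4 : s i (g.symm (g x)) = L.g i j (g.symm (g x)) ^ (m : ℤ) * s j (g.symm (g x)) :=
        h3 i j (g x) (by
          show g.symm (g x) ∈ (B.e i).source ∩ (B.e j).source
          rwa [g.symm_apply_apply])
      rwa [g.symm_apply_apply, zpow_natCast, ← lb_pow_g] at h4
  · intro h
    refine ⟨fun i => ?_, fun i y hy => h.off i _ hy, fun i j y hy => ?_⟩
    · have h1 := W.isHol isOpen_univ (h.hol i)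
      rwa [inter_univ] at h1
    · show s i (g.symm y) = L.g i j (g.symm y) ^ (m : ℤ) * s j (g.symm y)
      rw [zpow_natCast, ← lb_pow_g]
      exact h.tr i j _ hy (mem_univ _)

theorem h0_toL (W : Wk B g) (L : LB B) (m : ℕ) : (toL W L).h0 (m : ℤ) = h0 (L ^ m) := by
  let E : (B.ι → X → ℂ) ≃ₗ[ℂ] (B.ι → M → ℂ) :=
    LinearEquiv.piCongrRight fun _ => LinearEquiv.funCongrLeft ℂ ℂ g.toEquiv
  have h1 : Submodule.map E.toLinearMap ((toL W L).sectionSpace (m : ℤ)) = HS (L ^ m) univ := by
    ext s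
    rw [Submodule.mem_map_equiv, mem_HS, ← sec_iff W]
    rfl
  rw [h0, ← h1, LinearEquiv.finrank_map_eq]
  rfl

theorem iitaka_toL (W : Wk B g) {L : LB B} {p : ℕ} (h1 : Up L p) (h2 : Low L p) :
    (toL W L).HasIitakaDim p := by
  unfold HolLineBundle.HasIitakaDim
  simp only [h0_toL]
  exact ⟨h1, h2⟩

variable (B g) in
/-- the frozen twisted form -/
def toF (p : ℕ) (e : B.ι → M → FI n → ℂ) (j : B.ι) : Form n X p :=
  fun y => pb (tE B g j y) (frmP p (e j (g.symm y)))

theorem twisted_toF (W : Wk B g) {L : LB B} {p : ℕ} {e : B.ι → M → FI n → ℂ} (he : TOm L p e) :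
    (toL W L).IsTwistedFormFamily (-1) p (toF B g p e) := by
  refine ⟨fun j => ⟨fun y _ v i c => ?_, fun x₀ w hw => ?_⟩, fun j y hy => ?_, fun i j y hy => ?_⟩
  · rw [toF, pb_frmP]
    exact frmP_update p _ v i c
  · have h1 : ∀ v ∈ Crest.CxGeometry.chartWindow x₀ ((toL W L).U j),
        chartRep (toF B g p e j) x₀ v = frmP p (Gam (mx (fderiv ℂ (Fk B g x₀ j) v))ᵀ *ᵥ
          e j (g.symm ((chartAt (Cn n) x₀).symm v))) := by
      intro v hv
      rw [← pb_frmP, ← W.chain hv.1 hv.2, ← pb_comp]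
      unfold Crest.CxGeometry.chartRep
      rw [transDeriv_eq x₀ hv.1]
      rfl
    refine DifferentiableWithinAt.congr ?_ h1 (h1 w hw)
    refine (diff_frmP fun T => ?_).differentiableWithinAt
    show DifferentiableAt ℂ (fun v => ∑ S, Gam (mx (fderiv ℂ (Fk B g x₀ j) v))ᵀ T S *
      e j (g.symm ((chartAt (Cn n) x₀).symm v)) S) w
    refine DifferentiableAt.fun_sum fun S _ => ?_
    exact (diff_Gam (fun a b => W.diff_mx hw.1 hw.2 b a) T S).mul
      (W.diff_read isOpen_univ (he.hol j S) hw.1 hw.2 (mem_univ _))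
  · rw [toF, he.off j _ hy, frmP_zero]
    rfl
  · show toF B g p e i y = L.g i j (g.symm y) ^ (-1 : ℤ) • toF B g p e j y
    rw [toF, toF, he.tr i j _ hy, frmP_smul, pb_smul, _root_.zpow_neg_one, ← W.tE_tr hy,
      ← pb_comp, pb_frmP p (fderiv ℂ _ _)]
    rfl

theorem toF_ne (W : Wk B g) {L : LB B} {p : ℕ} {e : B.ι → M → FI n → ℂ} (he : TOm L p e)
    {i : B.ι} {x : M} (h : e i x ≠ 0) : p ≤ n ∧ toF B g p e i (g x) ≠ 0 := by
  have hx : x ∈ (B.e i).source := by
    by_contra h1
    exact h (he.off i x h1)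
  obtain ⟨T, hT⟩ := Function.ne_iff.1 h
  have hc : T.card = p := by
    by_contra h1
    exact hT (he.deg i x T h1)
  refine ⟨hc ▸ (T.card_le_univ.trans (Fintype.card_fin n).le), fun h0 => hT ?_⟩
  obtain ⟨D, hD⟩ := W.tE_inv hx
  have h1 : pb D (toF B g p e i (g x)) = frmP p (e i x) := by
    rw [toF, pb_comp, hD, g.symm_apply_apply]
    rfl
  rw [← frmP_bs (e i x) hc, ← h1, h0]
  rfl

/-- the fundamental group is a topological invariant (across universes) -/
theorem pi1_inj (g : M ≃ₜ X) (x₀ : X) :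
    Function.Injective (FundamentalGroup.map (⟨g.symm, g.symm.continuous⟩ : C(X, M)) x₀) := by
  refine Function.LeftInverse.injective (g := FundamentalGroup.mapOfEq
    (⟨g, g.continuous⟩ : C(M, X)) (g.apply_symm_apply x₀)) fun q => ?_
  obtain ⟨γ, rfl⟩ := Path.Homotopic.Quotient.mk_surjective (FundamentalGroup.toPath q)
  rw [FundamentalGroup.mapOfEq_apply]
  show Path.Homotopic.Quotient.mk _ = Path.Homotopic.Quotient.mk γ
  congr 1
  ext t
  exact g.apply_symm_apply (γ t)

end Br

/-- the frozen hypothesis in the language of atlases -/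
theorem special_of_frozen {n : ℕ} {X : Type u} [TopologicalSpace X] [ChartedSpace (Cn n) X]
    [IsManifold 𝓘(ℂ, Cn n) ω X] {M : Type} [TopologicalSpace M] {A : Atl n M} (K : Lk A X)
    (hspecial : ∀ p : ℕ, 1 ≤ p → p ≤ n → ∀ L : HolLineBundle n X,
      (∃ θ : L.ι → Form n X p, L.IsTwistedFormFamily (-1) p θ ∧ ∃ i x, θ i x ≠ 0) →
        ¬ L.HasIitakaDim p) : Special A := by
  rintro B hB p hp L e he ⟨i, x, hx⟩ h1 h2
  have W := Br.wk_of K hB
  obtain ⟨h3, h4⟩ := Br.toF_ne W he hx
  exact hspecial p hp h3 (Br.toL W L) ⟨_, Br.twisted_toF W he, i, _, h4⟩ (Br.iitaka_toL W h1 h2)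

/-- S0399 in the language of atlases -/
def MainStmt : Prop :=
  ∀ (n : ℕ) (M : Type) [TopologicalSpace M] [CompactSpace M] [T2Space M] [ConnectedSpace M]
    (A : Atl n M) [Finite A.ι], GoodA A → Part A → Kah A → Special A →
    ∀ (G : Type) [Group G] (D : MonD A G), Group.FG G → SimplyConnectedSpace (D.cov G) →
      ∃ H : Subgroup G, H.FiniteIndex ∧ ∀ a ∈ H, ∀ b ∈ H, a * b = b * a

/-- **the frozen statement from the atlas form** -/
theorem of_main (hM : MainStmt)
    {n : ℕ} {X : Type u} [TopologicalSpace X] [ChartedSpace (Cn n) X]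
    [IsManifold 𝓘(ℂ, Cn n) ω X] [CompactSpace X] [T2Space X] [ConnectedSpace X]
    (hK : IsKaehler n X)
    (hspecial : ∀ p : ℕ, 1 ≤ p → p ≤ n → ∀ L : HolLineBundle n X,
      (∃ θ : L.ι → Form n X p, L.IsTwistedFormFamily (-1) p θ ∧ ∃ i x, θ i x ≠ 0) →
        ¬ L.HasIitakaDim p)
    (x₀ : X) :
    ∃ H : Subgroup (FundamentalGroup X x₀), H.FiniteIndex ∧ ∀ a ∈ H, ∀ b ∈ H, a * b = b * a := by
  obtain ⟨α, hα⟩ := hK
  obtain ⟨M, tM, ⟨g⟩⟩ := exists_model n X
  have hcM : CompactSpace M := g.symm.compactSpace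
  have htM : T2Space M := g.symm.t2Space
  have hnM : ConnectedSpace M := g.symm.surjective.connectedSpace g.symm.continuous
  obtain ⟨A, hfin, hG, ⟨Q⟩, K, -, -⟩ := exists_lk (n := n) g (fun _ : Unit => univ)
    (fun _ => isOpen_univ) fun x => ⟨(), mem_univ x⟩
  have hlp : LocallyPathConnectedSpace M := by
    have := ChartedSpace.locallyPathConnectedSpace (Cn n) X
    exact g.isOpenEmbedding.locallyPathConnectedSpace
  have hpc : PathConnectedSpace M := pathConnectedSpace_iff_connectedSpace.2 inferInstance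
  obtain ⟨H, hH, hc⟩ := hM n M A hG Q (Crest.Agent.R281.DicD_273.kahOf K hα)
    (special_of_frozen K hspecial) _ (uD hG (g.symm x₀)) (fg hG _) (simplyConnected hG _)
  refine ⟨H.comap (FundamentalGroup.map (⟨g.symm, g.symm.continuous⟩ : C(X, M)) x₀), ⟨?_⟩,
    fun a ha b hb => Br.pi1_inj g x₀ ?_⟩
  · rw [Subgroup.index_comap]
    exact (Subgroup.instFiniteIndex_subgroupOf H _).index_ne_zero
  · rw [map_mul, map_mul]
    exact hc _ ha _ hb

end

end Crest.Agent.X261.E0
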