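import Crest.Agent.X261.E0.Defs
import Crest.Agent.R281.DicD_273
import Crest.Prelude.Def_CXLineBundle

/-!
# X261 (S0399), E0/Bridge (helper36), part A: `p`-forms from coefficients, weak links

* `dz p T`, `frmP p c` : the form `dz_T` and the form with coefficients `c`; `pb_frmP`;
* `Wk B g`             : the atlas `B` of `M` is compatible with the charts of `X` through `g`;
* `isHol_of`, `holAt_of`, `tE`, `chain`, `tE_tr`, `tE_inv`.
-/

set_option autoImplicit false
set_option linter.unusedSectionVars false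

open Set Filter Topology Complex Matrix
open scoped ContDiff Manifold

namespace Crest.Agent.X261.E0.Br

open Crest.Agent.R275.Geo Crest.Agent.R275.Core144
open Crest.Agent.R273.Fock_243 Crest.Agent.R273.Map_835
open Crest.Agent.R281.DicA_273
open Crest.Agent.R281.DicB_273 (bs sum_bs mx pb pb_apply pb_comp)
open Crest.CxGeometry (Form chartRep transDeriv chartWindow IsHolFunOn)

noncomputable section

universe u

variable {n : ℕ}

/-! ### forms from coefficients -/

/-- `dz_T` as a complex alternating map -/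
def dzT (p : ℕ) (T : FI n) (h : T.card = p) : (Cn n) [⋀^Fin p]→L[ℂ] ℂ :=
  { (Matrix.detRowAlternating (n := Fin p) (R := ℂ)).compLinearMap
      (LinearMap.pi fun t =>
        (EuclideanSpace.proj (T.orderEmbOfFin h t) : Cn n →L[ℂ] ℂ).toLinearMap) with
    cont := by
      show Continuous fun v : Fin p → Cn n =>
        Matrix.det (Matrix.of fun s t => v s (T.orderEmbOfFin h t))
      exact Continuous.matrix_det (continuous_matrix fun s t => by
        simp only [Matrix.of_apply]
        fun_prop) }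

theorem dzT_apply (p : ℕ) (T : FI n) (h : T.card = p) (v : Fin p → Cn n) :
    dzT p T h v = Matrix.det (Matrix.of fun s t => v s (T.orderEmbOfFin h t)) := rfl

/-- `dz_T` -/
def dz (p : ℕ) (T : FI n) : (Cn n) [⋀^Fin p]→L[ℝ] ℂ :=
  if h : T.card = p then (dzT p T h).restrictScalars ℝ else 0

theorem dz_of_ne {p : ℕ} {T : FI n} (h : T.card ≠ p) (v : Fin p → Cn n) : dz p T v = 0 := by
  rw [dz, dif_neg h]
  rfl

theorem dz_smul (p : ℕ) (T : FI n) (v : Fin p → Cn n) (i : Fin p) (c : ℂ) :
    dz p T (Function.update v i (c • v i)) = c • dz p T v := by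
  by_cases h : T.card = p
  · rw [dz, dif_pos h]
    show dzT p T h _ = c • dzT p T h v
    rw [(dzT p T h).map_update_smul, Function.update_eq_self]
  · rw [dz_of_ne h, dz_of_ne h, smul_zero]

theorem dz_eq {p : ℕ} {T : FI n} (hT : T.card = p) {v : Fin p → Cn n}
    (V : Matrix (Fin n) (Fin n) ℂ) (hV : ∀ a s, V a (T.orderEmbOfFin hT s) = v s a) (S : FI n) :
    dz p S v = Gam V S T := by
  by_cases h : S.card = p
  · rw [dz, dif_pos h, Gam_eq V h hT, ← Matrix.det_transpose]
    show dzT p S h v = _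
    rw [dzT_apply]
    congr 1
    ext s t
    exact (hV _ _).symm
  · rw [dz_of_ne h, Gam_of_ne V (by rwa [hT])]

theorem mx_mulVec (A : Cn n →L[ℂ] Cn n) (u : Cn n) (a : Fin n) :
    A u a = ∑ c, mx A a c * u c := by
  conv_lhs => rw [sum_bs u, map_sum]
  simp only [map_smul, WithLp.ofLp_sum, Finset.sum_apply, WithLp.ofLp_smul, Pi.smul_apply,
    smul_eq_mul]
  exact Finset.sum_congr rfl fun c _ => mul_comm _ _

theorem dz_comp (p : ℕ) (A : Cn n →L[ℂ] Cn n) (v : Fin p → Cn n) :
    (fun T => dz p T fun s => A (v s)) = Gam (mx A) *ᵥ fun S => dz p S v := by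
  funext T
  by_cases h : T.card = p
  · set V : Matrix (Fin n) (Fin n) ℂ :=
      fun a b => Function.extend (T.orderEmbOfFin h) (fun s => v s a) 0 b with hV
    have h1 : ∀ a s, V a (T.orderEmbOfFin h s) = v s a := fun a s =>
      (T.orderEmbOfFin h).injective.extend_apply _ _ s
    rw [dz_eq h (mx A * V) (fun a s => by
      rw [mx_mulVec, Matrix.mul_apply]
      simp only [h1]), Gam_mul, Matrix.mul_apply]
    show _ = ∑ S, Gam (mx A) T S * dz p S v
    exact Finset.sum_congr rfl fun S _ => by rw [dz_eq h V h1]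
  · rw [dz_of_ne h]
    show _ = ∑ S, Gam (mx A) T S * dz p S v
    refine (Finset.sum_eq_zero fun S _ => ?_).symm
    by_cases h1 : S.card = p
    · rw [Gam_of_ne _ (by rwa [h1]), zero_mul]
    · rw [dz_of_ne h1, mul_zero]

/-- the form with coefficients `c` -/
def frmP (p : ℕ) (c : FI n → ℂ) : (Cn n) [⋀^Fin p]→L[ℝ] ℂ := ∑ T, c T • dz p T

theorem frmP_apply (p : ℕ) (c : FI n → ℂ) (v : Fin p → Cn n) :
    frmP p c v = c ⬝ᵥ fun T => dz p T v := by
  rw [frmP, ContinuousAlternatingMap.sum_apply]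
  rfl

theorem frmP_smul (p : ℕ) (t : ℂ) (c : FI n → ℂ) : frmP p (t • c) = t • frmP p c := by
  ext v
  rw [ContinuousAlternatingMap.smul_apply, frmP_apply, frmP_apply, smul_dotProduct]

theorem frmP_zero (p : ℕ) : frmP p (0 : FI n → ℂ) = 0 := by
  ext v
  rw [frmP_apply, zero_dotProduct]
  rfl

theorem frmP_update (p : ℕ) (c : FI n → ℂ) (v : Fin p → Cn n) (i : Fin p) (t : ℂ) :
    frmP p c (Function.update v i (t • v i)) = t • frmP p c v := by
  rw [frmP_apply, frmP_apply, ← dotProduct_smul]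
  congr 1
  funext T
  exact dz_smul p T v i t

theorem pb_frmP (p : ℕ) (A : Cn n →L[ℂ] Cn n) (c : FI n → ℂ) :
    pb A (frmP p c) = frmP p (Gam (mx A)ᵀ *ᵥ c) := by
  ext v
  rw [pb_apply, frmP_apply, frmP_apply, dz_comp, dotProduct_mulVec, ← Gam_transpose,
    mulVec_transpose]

theorem frmP_bs {p : ℕ} (c : FI n → ℂ) {T : FI n} (h : T.card = p) :
    frmP p c (fun s => bs (T.orderEmbOfFin h s)) = c T := by
  have h1 : (fun S => dz p S fun s => bs (T.orderEmbOfFin h s)) = Pi.single T 1 := by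
    funext S
    rw [dz_eq h 1 (fun a s => by simp [Matrix.one_apply]), Gam_one, Matrix.one_apply,
      Pi.single_apply]
  rw [frmP_apply, h1, dotProduct_single, mul_one]

theorem pb_smul {k : ℕ} (A : Cn n →L[ℂ] Cn n) (t : ℂ) (β : (Cn n) [⋀^Fin k]→L[ℝ] ℂ) :
    pb A (t • β) = t • pb A β := rfl

theorem diff_frmP {p : ℕ} {c : Cn n → FI n → ℂ} {w : Cn n}
    (h : ∀ T, DifferentiableAt ℂ (fun v => c v T) w) :
    DifferentiableAt ℂ (fun v => frmP p (c v)) w :=
  DifferentiableAt.fun_sum fun T _ => (h T).smul_const _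

theorem diff_Gam {m : Cn n → Matrix (Fin n) (Fin n) ℂ} {w : Cn n}
    (hm : ∀ a b, DifferentiableAt ℂ (fun v => m v a b) w) (S T : FI n) :
    DifferentiableAt ℂ (fun v => Gam (m v) S T) w := by
  by_cases h : S.card = T.card
  · simp only [Gam_eq _ h rfl, Matrix.det_apply']
    refine DifferentiableAt.fun_sum fun σ _ => DifferentiableAt.const_mul ?_ _
    simp only [Matrix.submatrix_apply]
    have key : ∀ s : Finset (Fin T.card), DifferentiableAt ℂ (fun v => ∏ i ∈ s,
        m v (S.orderEmbOfFin h (σ i)) (T.orderEmbOfFin rfl i)) w := by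
      intro s
      induction s using Finset.induction_on with
      | empty => simp only [Finset.prod_empty]; exact differentiableAt_const _
      | insert a s ha ih => simp only [Finset.prod_insert ha]; exact (hm _ _).mul ih
    exact key Finset.univ
  · simp only [Gam_of_ne _ h]
    exact differentiableAt_const _

/-! ### weak links -/

variable {X : Type u} [TopologicalSpace X] [ChartedSpace (Cn n) X] {M : Type} [TopologicalSpace M]
  {A B : Atl n M} {g : M ≃ₜ X}

/-- from a preferred chart of `X` to a chart of `B` -/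
def Fk (B : Atl n M) (g : M ≃ₜ X) (y : X) (j : B.ι) (w : Cn n) : Cn n :=
  B.e j (g.symm ((chartAt (Cn n) y).symm w))

/-- from a chart of `B` to a preferred chart of `X` -/
def Gk (B : Atl n M) (g : M ≃ₜ X) (y : X) (j : B.ι) (z : Cn n) : Cn n :=
  chartAt (Cn n) y (g ((B.e j).symm z))

/-- the atlas `B` of `M` is compatible with the charts of `X` -/
structure Wk (B : Atl n M) (g : M ≃ₜ X) : Prop where
  d1 : ∀ (y : X) j w, w ∈ (chartAt (Cn n) y).target →
    g.symm ((chartAt (Cn n) y).symm w) ∈ (B.e j).source → DifferentiableAt ℂ (Fk B g y j) w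
  d2 : ∀ (y : X) j x, x ∈ (B.e j).source → g x ∈ (chartAt (Cn n) y).source →
    DifferentiableAt ℂ (Gk B g y j) (B.e j x)

theorem ev_F {y : X} {w : Cn n} (hw : w ∈ (chartAt (Cn n) y).target) {U : Set M} (hU : IsOpen U)
    (h : g.symm ((chartAt (Cn n) y).symm w) ∈ U) :
    ∀ᶠ v in 𝓝 w, g.symm ((chartAt (Cn n) y).symm v) ∈ U :=
  (g.symm.continuous.continuousAt.comp ((chartAt (Cn n) y).continuousAt_symm hw)).eventually
    (hU.mem_nhds h)

theorem ev_G {j : B.ι} {x : M} (hx : x ∈ (B.e j).source) {U : Set M} (hU : IsOpen U) (h : x ∈ U) :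
    ∀ᶠ z in 𝓝 (B.e j x), (B.e j).symm z ∈ U :=
  ((B.e j).continuousAt_symm ((B.e j).map_source hx)).eventually
    (hU.mem_nhds (by rwa [(B.e j).left_inv hx]))

variable [IsManifold 𝓘(ℂ, Cn n) ω X]

theorem wk_of (K : Lk A X) (h : Cmp A B) : Wk B K.g where
  d1 y j w hw hj := by
    obtain ⟨i, hi⟩ := A.cover (K.g.symm ((chartAt (Cn n) y).symm w))
    have h1 : DifferentiableAt ℂ (Crest.Agent.R281.DicC_273.Fc K y i) w :=
      (Crest.Agent.R281.DicC_273.Fc_diff K y i).differentiableAt
        ((Crest.Agent.R281.DicC_273.isOpen_Wd K y i).mem_nhds ⟨hw, hi⟩)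
    have h2 : DifferentiableAt ℂ (rd A B id i j) (Crest.Agent.R281.DicC_273.Fc K y i w) :=
      (h.1.hol i j).differentiableAt ((h.1.isOpen_dm i j).mem_nhds (mem_dm hi hj))
    refine (h2.comp w h1).congr_of_eventuallyEq ?_
    filter_upwards [ev_F hw (A.e i).open_source hi] with v hv
    show _ = B.e j ((A.e i).symm (A.e i _))
    rw [(A.e i).left_inv hv]
    rfl
  d2 y j x hx hy := by
    obtain ⟨i, hi⟩ := A.cover x
    have h1 : DifferentiableAt ℂ (rd B A id j i) (B.e j x) :=
      (h.2.hol j i).differentiableAt ((h.2.isOpen_dm j i).mem_nhds (mem_dm hx hi))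
    have h2 : DifferentiableAt ℂ (fun z => chartAt (Cn n) y (K.g ((A.e i).symm z)))
        (rd B A id j i (B.e j x)) := by
      have h3 : rd B A id j i (B.e j x) = A.e i x := by
        show A.e i ((B.e j).symm (B.e j x)) = _
        rw [(B.e j).left_inv hx]
      rw [h3]
      exact (K.hasFDerivAt_chg hi hy).differentiableAt
    refine (h2.comp _ h1).congr_of_eventuallyEq ?_
    filter_upwards [ev_G hx (A.e i).open_source hi] with v hv
    show _ = chartAt (Cn n) y (K.g ((A.e i).symm (A.e i _)))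
    rw [id, (A.e i).left_inv hv]
    rfl

theorem Wk.diff_read (W : Wk B g) {j : B.ι} {U : Set M} (hU : IsOpen U) {f : M → ℂ}
    (hf : HolAt B j U f) {y : X} {w : Cn n} (hw : w ∈ (chartAt (Cn n) y).target)
    (hj : g.symm ((chartAt (Cn n) y).symm w) ∈ (B.e j).source)
    (hu : g.symm ((chartAt (Cn n) y).symm w) ∈ U) :
    DifferentiableAt ℂ (fun v => f (g.symm ((chartAt (Cn n) y).symm v))) w := by
  refine (DifferentiableAt.comp (g := fun z => f ((B.e j).symm z)) w (hf.diffAt hU hj hu)
    (W.d1 y j w hw hj)).congr_of_eventuallyEq ?_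
  filter_upwards [ev_F hw (B.e j).open_source hj] with v hv
  show _ = f ((B.e j).symm (B.e j _))
  rw [(B.e j).left_inv hv]

theorem Wk.isHol (W : Wk B g) {j : B.ι} {U : Set M} (hU : IsOpen U) {f : M → ℂ}
    (hf : HolAt B j U f) :
    IsHolFunOn (n := n) (fun y => f (g.symm y)) (g.symm ⁻¹' ((B.e j).source ∩ U)) :=
  fun _ _ hw => (W.diff_read hU hf hw.1 hw.2.1 hw.2.2).differentiableWithinAt

theorem Wk.holAt (W : Wk B g) {j : B.ι} {f : M → ℂ}
    (hf : IsHolFunOn (n := n) (fun y => f (g.symm y)) (g.symm ⁻¹' (B.e j).source)) :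
    HolAt B j univ f := by
  intro z hz
  obtain ⟨x, hx, rfl⟩ : ∃ x ∈ (B.e j).source, B.e j x = z :=
    ⟨_, (B.e j).map_target hz.1, (B.e j).right_inv hz.1⟩
  refine DifferentiableAt.differentiableWithinAt ?_
  have h0 := mem_chart_source (Cn n) (g x)
  have h1 : Gk B g (g x) j (B.e j x) = chartAt (Cn n) (g x) (g x) := by
    rw [Gk, (B.e j).left_inv hx]
  have h2 : DifferentiableAt ℂ ((fun y => f (g.symm y)) ∘ (chartAt (Cn n) (g x)).symm)
      (Gk B g (g x) j (B.e j x)) := by
    rw [h1]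
    refine (hf (g x)).differentiableAt (((chartAt (Cn n) (g x)).isOpen_inter_preimage_symm
      ((B.e j).open_source.preimage g.symm.continuous)).mem_nhds
        ⟨(chartAt (Cn n) (g x)).map_source h0, ?_⟩)
    rw [mem_preimage, (chartAt (Cn n) (g x)).left_inv h0, mem_preimage, g.symm_apply_apply]
    exact hx
  refine (h2.comp _ (W.d2 (g x) j x hx h0)).congr_of_eventuallyEq ?_
  filter_upwards [ev_G hx ((chartAt (Cn n) (g x)).open_source.preimage g.continuous) h0] with v hv
  show _ = f (g.symm ((chartAt (Cn n) (g x)).symm (chartAt (Cn n) (g x) _)))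
  rw [(chartAt (Cn n) (g x)).left_inv hv, g.symm_apply_apply]

variable (B g) in
/-- derivative of the change from the preferred coordinates at `y` to the chart `j` -/
def tE (j : B.ι) (y : X) : Cn n →L[ℂ] Cn n := fderiv ℂ (Fk B g y j) (chartAt (Cn n) y y)

theorem ch_self (y : X) : (chartAt (Cn n) y).symm (chartAt (Cn n) y y) = y :=
  (chartAt (Cn n) y).left_inv (mem_chart_source (Cn n) y)

theorem Wk.has_tE (W : Wk B g) {j : B.ι} {y : X} (hy : g.symm y ∈ (B.e j).source) :
    HasFDerivAt (Fk B g y j) (tE B g j y) (chartAt (Cn n) y y) :=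
  (W.d1 y j _ (mem_chart_target (Cn n) y) (by rwa [ch_self])).hasFDerivAt

theorem Wk.chain (W : Wk B g) {j : B.ι} {x₀ : X} {w : Cn n} (hw : w ∈ (chartAt (Cn n) x₀).target)
    (hj : g.symm ((chartAt (Cn n) x₀).symm w) ∈ (B.e j).source) :
    (tE B g j ((chartAt (Cn n) x₀).symm w)).comp
      (fderiv ℂ (fun v => chartAt (Cn n) ((chartAt (Cn n) x₀).symm w)
        ((chartAt (Cn n) x₀).symm v)) w) = fderiv ℂ (Fk B g x₀ j) w := by
  set y := (chartAt (Cn n) x₀).symm w with hy
  have h1 := (diffAt_trans' hw (mem_chart_source (Cn n) y)).hasFDerivAt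
  have h3 := HasFDerivAt.comp w (f := fun v => chartAt (Cn n) y ((chartAt (Cn n) x₀).symm v))
    (W.has_tE hj) h1
  refine ((h3.congr_of_eventuallyEq ?_).fderiv).symm
  filter_upwards [((chartAt (Cn n) x₀).continuousAt_symm hw).eventually
    ((chartAt (Cn n) y).open_source.mem_nhds (mem_chart_source (Cn n) y))] with v hv
  rw [Function.comp_apply, Fk, Fk, (chartAt (Cn n) y).left_inv hv]

theorem Wk.tE_tr (W : Wk B g) {i j : B.ι} {y : X}
    (hy : g.symm y ∈ (B.e i).source ∩ (B.e j).source) :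
    (fderiv ℂ (fun z => B.e j ((B.e i).symm z)) (B.e i (g.symm y))).comp (tE B g i y) =
      tE B g j y := by
  have h1 : HasFDerivAt (fun z => B.e j ((B.e i).symm z))
      (fderiv ℂ (fun z => B.e j ((B.e i).symm z)) (B.e i (g.symm y)))
      (Fk B g y i (chartAt (Cn n) y y)) := by
    rw [Fk, ch_self]
    exact Lk.hasFDerivAt_tr hy
  refine (((h1.comp _ (W.has_tE hy.1)).congr_of_eventuallyEq ?_).fderiv).symm
  filter_upwards [ev_F (g := g) (mem_chart_target (Cn n) y) (B.e i).open_source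
    (by rw [ch_self]; exact hy.1)] with v hv
  rw [Function.comp_apply, Fk, Fk, (B.e i).left_inv hv]

theorem Wk.tE_inv (W : Wk B g) {j : B.ι} {x : M} (hx : x ∈ (B.e j).source) :
    ∃ D : Cn n →L[ℂ] Cn n, (tE B g j (g x)).comp D = ContinuousLinearMap.id ℂ (Cn n) := by
  have h0 := mem_chart_source (Cn n) (g x)
  have h1 : HasFDerivAt (Fk B g (g x) j) (tE B g j (g x)) (Gk B g (g x) j (B.e j x)) := by
    rw [Gk, (B.e j).left_inv hx]
    exact W.has_tE (by rwa [g.symm_apply_apply])
  have h2 := h1.comp _ (W.d2 (g x) j x hx h0).hasFDerivAt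
  refine ⟨_, h2.unique ((hasFDerivAt_id _).congr_of_eventuallyEq ?_)⟩
  filter_upwards [ev_G hx ((chartAt (Cn n) (g x)).open_source.preimage g.continuous) h0,
    (B.e j).open_target.mem_nhds ((B.e j).map_source hx)] with v hv hv'
  rw [Function.comp_apply, Fk, Gk, (chartAt (Cn n) (g x)).left_inv hv, g.symm_apply_apply,
    (B.e j).right_inv hv', id]

theorem Wk.diff_mx (W : Wk B g) {j : B.ι} {x₀ : X} {w : Cn n}
    (hw : w ∈ (chartAt (Cn n) x₀).target)
    (hj : g.symm ((chartAt (Cn n) x₀).symm w) ∈ (B.e j).source) (a b : Fin n) :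
    DifferentiableAt ℂ (fun v => mx (fderiv ℂ (Fk B g x₀ j) v) a b) w := by
  have h1 : AnalyticOnNhd ℂ (fderiv ℂ (Fk B g x₀ j))
      ((chartAt (Cn n) x₀).target ∩ (chartAt (Cn n) x₀).symm ⁻¹' (g.symm ⁻¹' (B.e j).source)) :=
    (Crest.Agent.R266.SCV.analyticOnNhd_of_differentiableOn
      ((chartAt (Cn n) x₀).isOpen_inter_preimage_symm
        ((B.e j).open_source.preimage g.symm.continuous))
      fun v hv => (W.d1 x₀ j v hv.1 hv.2).differentiableWithinAt).fderiv
  have h3 : DifferentiableAt ℂ (fun v => fderiv ℂ (Fk B g x₀ j) v (bs b)) w :=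
    (h1 w ⟨hw, hj⟩).differentiableAt.clm_apply (differentiableAt_const _)
  exact ((EuclideanSpace.proj a : Cn n →L[ℂ] ℂ).differentiableAt).comp w h3

end

end Crest.Agent.X261.E0.Br
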