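import Crest.Agent.R273.Kah_333
import Crest.Agent.R273.C0a_390

/-!
# X261 (S0399), E0 (helper69), CLOSED part A: the complex Hessian of `log (|S|² W + δ)`

* `wd_comp_real`, `hess_comp_real`, `hess_log_cmp` : chain rules (as in `R273.FIa0_597`)
* `hess_lse` : `∂∂̄ log (U + δ) ≥ U / (U + δ) ∂∂̄ log W` for `U = |S|² W`, `S` holomorphic
-/

set_option autoImplicit false
set_option linter.unusedSectionVars false

open Set Filter Topology Complex
open scoped ContDiff Matrix ComplexConjugate ComplexOrder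

namespace Crest.Agent.X261.E0.ClA

open Crest.Agent.R275.Geo Crest.Agent.R275.Core144 Crest.Agent.R275.EDR890
open Crest.Agent.R273.Defs_333 Crest.Agent.R273.Hess_333 Crest.Agent.R273.HessB_333

noncomputable section

variable {n : ℕ}

theorem wd_comp_real {φ : ℝ → ℝ} {d : ℝ} {u : Cn n → ℝ} {z : Cn n} (s : WI n)
    (hu : DifferentiableAt ℝ u z) (hφ : HasDerivAt φ d (u z)) :
    wd s (cu fun w => φ (u w)) z = (d : ℂ) * wd s (cu u) z := by
  have h1 : HasFDerivAt (cu u) (Complex.ofRealCLM.comp (fderiv ℝ u z)) z :=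
    Complex.ofRealCLM.hasFDerivAt.comp z hu.hasFDerivAt
  have h2 : HasFDerivAt (cu fun w => φ (u w)) (Complex.ofRealCLM.comp (d • fderiv ℝ u z)) z :=
    Complex.ofRealCLM.hasFDerivAt.comp z (hφ.comp_hasFDerivAt z hu.hasFDerivAt)
  have h3 : Complex.ofRealCLM.comp (d • fderiv ℝ u z) =
      (d : ℂ) • Complex.ofRealCLM.comp (fderiv ℝ u z) := by
    ext v
    simp
  rw [wd, wd, h1.fderiv, h2.fderiv, h3, wdL_smul, smul_eq_mul]

theorem hess_comp_real {φ φ' : ℝ → ℝ} {d2 : ℝ} {u : Cn n → ℝ} {z : Cn n}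
    (hu : ContDiffAt ℝ ∞ u z) (h1 : ∀ᶠ s in 𝓝 (u z), HasDerivAt φ (φ' s) s)
    (h2 : HasDerivAt φ' d2 (u z)) (a b : Fin n) :
    hess (fun w => φ (u w)) z a b = (φ' (u z) : ℂ) * hess u z a b +
      (d2 : ℂ) * (wd (false, a) (cu u) z * wd (true, b) (cu u) z) := by
  have hd : ∀ᶠ w in 𝓝 z, DifferentiableAt ℝ u w := by
    have := (hu.of_le (m := 1) (by exact_mod_cast le_top)).eventually (by simp)
    filter_upwards [this] with w hw
    exact hw.differentiableAt (by simp)
  have e1 : wd (true, b) (cu fun w => φ (u w)) =ᶠ[𝓝 z] fun w =>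
      (cu fun w => φ' (u w)) w * wd (true, b) (cu u) w := by
    filter_upwards [hd, hu.continuousAt.eventually h1] with w hw hw'
    exact wd_comp_real (true, b) hw hw'
  have hd0 : DifferentiableAt ℝ u z := hu.differentiableAt (by simp)
  have d1 : DifferentiableAt ℝ (cu fun w => φ' (u w)) z :=
    Complex.ofRealCLM.differentiableAt.comp z (h2.differentiableAt.comp z hd0)
  have d3 : DifferentiableAt ℝ (wd (true, b) (cu u)) z :=
    (contDiffAt_wd (contDiffAt_cu hu) _).differentiableAt (by simp)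
  rw [hess_apply, wd_congr e1, wd_mul d1 d3, wd_comp_real (φ := φ') (false, a) hd0 h2, hess_apply]
  simp only [cu]
  ring

theorem hess_log_add {U : Cn n → ℝ} {z : Cn n} (δ : ℝ) (hU : ContDiffAt ℝ ∞ U z)
    (hp : 0 < U z + δ) (a b : Fin n) :
    hess (fun w => Real.log (U w + δ)) z a b = ((U z + δ)⁻¹ : ℝ) * hess U z a b -
      (((U z + δ) ^ 2)⁻¹ : ℝ) * (wd (false, a) (cu U) z * wd (true, b) (cu U) z) := by
  have h1 : ∀ᶠ s in 𝓝 (U z), HasDerivAt (fun s => Real.log (s + δ)) ((s + δ)⁻¹) s := by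
    have : ∀ᶠ s in 𝓝 (U z), 0 < s + δ :=
      (continuous_id.add continuous_const).continuousAt.eventually (lt_mem_nhds hp)
    filter_upwards [this] with s hs
    have h := ((hasDerivAt_id s).add_const δ).log hs.ne'
    simpa using h
  have h2 : HasDerivAt (fun s : ℝ => (s + δ)⁻¹) (-((U z + δ) ^ 2)⁻¹) (U z) := by
    have h := ((hasDerivAt_id (U z)).add_const δ).inv hp.ne'
    have e : -((U z + δ) ^ 2)⁻¹ = -1 / (id (U z) + δ) ^ 2 := by
      simp only [id, neg_div, one_div]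
    rw [e]
    exact h
  rw [hess_comp_real (φ := fun s => Real.log (s + δ)) (φ' := fun s => (s + δ)⁻¹) hU h1 h2]
  push_cast
  ring

/-- `∂u` as a vector -/
def gr (u : Cn n → ℝ) (z : Cn n) : Fin n → ℂ := fun a => wd (false, a) (cu u) z

theorem star_gr {u : Cn n → ℝ} {z : Cn n} (hu : DifferentiableAt ℝ u z) (b : Fin n) :
    star (gr u z) b = wd (true, b) (cu u) z := by
  show conj (wd (false, b) (cu u) z) = _
  rw [conj_wd_real _ hu]
  rfl

theorem hess_log_add_mat {U : Cn n → ℝ} {z : Cn n} (δ : ℝ) (hU : ContDiffAt ℝ ∞ U z)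
    (hp : 0 < U z + δ) :
    hess (fun w => Real.log (U w + δ)) z = ((U z + δ)⁻¹ : ℝ) • hess U z -
      (((U z + δ) ^ 2)⁻¹ : ℝ) • Matrix.vecMulVec (gr U z) (star (gr U z)) := by
  ext a b
  rw [hess_log_add δ hU hp, Matrix.sub_apply, Matrix.smul_apply, Matrix.smul_apply,
    Matrix.vecMulVec_apply, star_gr (hU.differentiableAt (by simp))]
  simp only [gr, Complex.real_smul]

theorem hess_log_cmp {U : Cn n → ℝ} {z : Cn n} {δ : ℝ} (hδ : 0 ≤ δ) (hU : ContDiffAt ℝ ∞ U z)
    (hp : 0 < U z) :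
    hess (fun w => Real.log (U w + δ)) z = (U z / (U z + δ) : ℝ) • hess (fun w => Real.log (U w)) z
      + (δ / (U z * (U z + δ) ^ 2) : ℝ) • Matrix.vecMulVec (gr U z) (star (gr U z)) := by
  have hp' : 0 < U z + δ := by positivity
  have h0 := hess_log_add_mat 0 hU (by simpa using hp)
  simp only [add_zero] at h0
  rw [hess_log_add_mat δ hU hp', h0, smul_sub, smul_smul, smul_smul, sub_add, ← sub_smul]
  congr 2
  · field_simp
  · field_simp
    ring

theorem hess_of_min {u : Cn n → ℝ} {z : Cn n} (hu : ContDiffAt ℝ ∞ u z) (hm : IsLocalMin u z) :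
    (hess u z).PosSemidef := by
  refine posSemidef_hess hu fun v => ?_
  have h2 : ContDiffAt ℝ 2 u z := hu.of_le (WithTop.coe_le_coe.2 le_top)
  unfold lev
  rw [iteratedFDeriv_two_apply, iteratedFDeriv_two_apply]
  exact add_nonneg (Crest.Agent.R273.C0a_390.fderiv2_nonneg h2 hm _)
    (Crest.Agent.R273.C0a_390.fderiv2_nonneg h2 hm _)

theorem cd_hol {S : Cn n → ℂ} {z : Cn n} (hS : ∀ᶠ w in 𝓝 z, DifferentiableAt ℂ S w) :
    ContDiffAt ℝ ∞ S z := by
  obtain ⟨U, hU, hUo, hUz⟩ := eventually_nhds_iff.1 hS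
  have h1 : DifferentiableOn ℂ S U := fun w hw => (hU w hw).differentiableWithinAt
  exact (((Crest.Agent.R266.SCV.contDiffOn_omega_of_differentiableOn hUo h1).restrict_scalars
    ℝ).of_le le_top).contDiffAt (hUo.mem_nhds hUz)

/-- `∂∂̄ log (|S|² W + δ) ≥ |S|² W / (|S|² W + δ) ∂∂̄ log W` -/
theorem hess_lse {S : Cn n → ℂ} {W : Cn n → ℝ} {z : Cn n} {δ : ℝ} (hδ : 0 < δ)
    (hS : ∀ᶠ w in 𝓝 z, DifferentiableAt ℂ S w) (hW : ContDiffAt ℝ ∞ W z) (hW0 : 0 < W z) :
    (hess (fun w => Real.log (‖S w‖ ^ 2 * W w + δ)) z -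
      (‖S z‖ ^ 2 * W z / (‖S z‖ ^ 2 * W z + δ) : ℝ) •
        hess (fun w => Real.log (W w)) z).PosSemidef := by
  have hSc := cd_hol hS
  have hU : ContDiffAt ℝ ∞ (fun w => ‖S w‖ ^ 2 * W w) z := (hSc.norm_sq ℝ).mul hW
  have hWp : ∀ᶠ w in 𝓝 z, 0 < W w := hW.continuousAt.eventually (lt_mem_nhds hW0)
  by_cases h0 : S z = 0
  · rw [h0]
    simp only [norm_zero, ne_eq, OfNat.ofNat_ne_zero, not_false_eq_true, zero_pow, zero_mul,
      zero_add, zero_div, zero_smul, sub_zero]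
    refine hess_of_min ((hU.add contDiffAt_const).log ?_) ?_
    · rw [h0]; simpa using hδ.ne'
    · filter_upwards [hWp] with w hw
      simp only [h0, norm_zero, ne_eq, OfNat.ofNat_ne_zero, not_false_eq_true, zero_pow, zero_mul,
        zero_add]
      refine Real.log_le_log hδ ?_
      have : 0 ≤ ‖S w‖ ^ 2 * W w := by positivity
      linarith
  · have hp : 0 < ‖S z‖ ^ 2 * W z := by
      have := norm_pos_iff.2 h0
      positivity
    have h1 := hess_log_cmp (U := fun w => ‖S w‖ ^ 2 * W w) hδ.le hU hp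
    have h2 : hess (fun w => Real.log (‖S w‖ ^ 2 * W w)) z = hess (fun w => Real.log (W w)) z := by
      have h3 : (fun w => Real.log (‖S w‖ ^ 2 * W w)) =ᶠ[𝓝 z]
          fun w => (fun w => Real.log (‖S w‖ ^ 2)) w + (fun w => Real.log (W w)) w := by
        filter_upwards [hWp, hSc.continuousAt.eventually_ne h0] with w hw hw'
        exact Real.log_mul (pow_ne_zero 2 (norm_ne_zero_iff.2 hw')) hw.ne'
      rw [hess_congr h3, hess_add ((hSc.norm_sq ℝ).log (pow_ne_zero 2 (norm_ne_zero_iff.2 h0)))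
        (hW.log hW0.ne'), hess_log_norm hS h0, zero_add]
    rw [h1, h2, add_sub_cancel_left]
    refine Matrix.PosSemidef.smul (Matrix.posSemidef_vecMulVec_self_star _) ?_
    positivity

end

end Crest.Agent.X261.E0.ClA
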