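import Crest.Agent.R273.BKNd_37
import Crest.Agent.X261.E0.ClA

/-!
# X261 (S0399), E0 (helper69), CLOSED part B: the Bochner argument

`v` a holomorphic polyvector field with values in `N`, `h` a metric on `K⁻¹ N`, `s` a holomorphic
section of `(K⁻¹ N)⁻¹ ^ m`, `σ = |s|²`.  With the metrics `h (σ + δ) ^ (1 / m)` the
Bochner-Kodaira-Nakano identity gives `σ δ_h v + (1 / m) i_{∂σ} v = 0` (`es_zero`).
-/

set_option autoImplicit false
set_option linter.unusedSectionVars false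

open Set Filter Topology Complex Matrix MeasureTheory
open scoped ContDiff Matrix ComplexConjugate ComplexOrder

namespace Crest.Agent.X261.E0.ClB

open Crest.Agent.R275 Crest.Agent.R275.Geo Crest.Agent.R275.Core144
open Crest.Agent.R275.Pai323 Crest.Agent.R275.C1d194
open Crest.Agent.R275.SerG398 (lint dens)
open Crest.Agent.R275.OmT75 (dl)
open Crest.Agent.R273
open Crest.Agent.R273.Defs_333 Crest.Agent.R273.HM_333 Crest.Agent.R273.Kah_333
open Crest.Agent.R273.Hess_333 Crest.Agent.R273.HessB_333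
open Crest.Agent.R273.Fock_243 Crest.Agent.R273.Calc_243 Crest.Agent.R273.Bkn_243
open Crest.Agent.R273.Pos_243
open Crest.Agent.R273.StV_37 Crest.Agent.R273.BKNa_37
open Crest.Agent.R273.BKNb_37 Crest.Agent.R273.BKNc_37 Crest.Agent.R273.BKNd_37
open Crest.Agent.X261.E0.ClA

noncomputable section

variable {n : ℕ} {M : Type} [TopologicalSpace M] {A : Atl n M} {L N : LB A}

/-! ### the squared length of a section as a function -/

/-- `|s|²` -/
def sg (H : HM L) (s : A.ι → M → ℂ) (x : M) : ℝ := nsq H s (A.cover x).choose x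

theorem sg_eq (H : HM L) {s : A.ι → M → ℂ} (hs : IsHS L univ s) {i : A.ι} {x : M}
    (hx : x ∈ (A.e i).source) : sg H s x = ‖s i x‖ ^ 2 * H.w i x :=
  nsq_indep H hs ⟨(A.cover x).choose_spec, hx⟩ (mem_univ x)

theorem sg_nonneg (H : HM L) (s : A.ι → M → ℂ) (x : M) : 0 ≤ sg H s x :=
  mul_nonneg (sq_nonneg _) (H.pos _ x (A.cover x).choose_spec).le

theorem smAt_hol {i : A.ι} {f : M → ℂ} (h : HolAt A i univ f) : A.SmAt i f := by
  have := h.contDiffOn isOpen_univ
  rw [preimage_univ, inter_univ] at this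
  exact this

theorem sg_sm (H : HM L) {s : A.ι → M → ℂ} (hs : IsHS L univ s) : A.Sm (sg H s) := by
  intro i
  have h1 : ContDiffOn ℝ ∞ (fun z => ‖s i ((A.e i).symm z)‖ ^ 2 * H.w i ((A.e i).symm z))
      (A.e i).target := (ContDiffOn.norm_sq ℝ (smAt_hol (hs.hol i))).mul (H.sm i)
  exact h1.congr fun z hz => sg_eq H hs ((A.e i).map_target hz)

theorem contAt_of_smAt {W : Type*} [NormedAddCommGroup W] [NormedSpace ℝ W] {i : A.ι} {f : M → W}
    (h : A.SmAt i f) {x : M} (hx : x ∈ (A.e i).source) : ContinuousAt f x := by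
  have h1 : ContinuousAt (fun z => f ((A.e i).symm z)) (A.e i x) :=
    (ContDiffOn.continuousOn h).continuousAt
      ((A.e i).open_target.mem_nhds ((A.e i).map_source hx))
  have h2 := ContinuousAt.comp (f := A.e i) h1 ((A.e i).continuousAt hx)
  refine h2.congr ?_
  filter_upwards [(A.e i).open_source.mem_nhds hx] with y hy
  simp [(A.e i).left_inv hy]

theorem cont_of_sm {f : M → ℝ} (h : A.Sm f) : Continuous f :=
  continuous_iff_continuousAt.2 fun x => contAt_of_smAt (h _) (A.cover x).choose_spec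

/-! ### algebra -/

theorem Cv_sub (G : Matrix (FI n) (FI n) ℂ) (c : ℂ) (t t' : Matrix (Fin n) (Fin n) ℂ)
    (a b : FI n → ℂ) : Cv G (c • t - t') a b = c * Cv G t a b - Cv G t' a b := by
  unfold Cv
  simp only [Finset.mul_sum, ← Finset.sum_sub_distrib]
  refine Finset.sum_congr rfl fun k _ => Finset.sum_congr rfl fun l _ => ?_
  simp only [Matrix.sub_apply, Matrix.smul_apply, smul_eq_mul]
  ring

theorem quad_le {G : Matrix (FI n) (FI n) ℂ} (hG : G.PosSemidef) (a b : ℝ) (p q : FI n → ℂ) :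
    star ((a : ℂ) • p - (b : ℂ) • q) ⬝ᵥ (G *ᵥ ((a : ℂ) • p - (b : ℂ) • q)) ≤
      2 * (a : ℂ) ^ 2 * (star p ⬝ᵥ (G *ᵥ p)) + 2 * (b : ℂ) ^ 2 * (star q ⬝ᵥ (G *ᵥ q)) := by
  have h1 := hG.dotProduct_mulVec_nonneg ((a : ℂ) • p + (b : ℂ) • q)
  rw [← sub_nonneg]
  convert h1 using 1
  simp only [star_sub, star_add, star_smul, Matrix.mulVec_sub, Matrix.mulVec_add,
    Matrix.mulVec_smul, sub_dotProduct, add_dotProduct, dotProduct_sub, dotProduct_add,
    smul_dotProduct, dotProduct_smul, smul_eq_mul, RCLike.star_def, Complex.conj_ofReal]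
  ring

/-! ### densities -/

theorem isD_mul {f : A.ι → M → ℂ} (hf : IsD A f) {μ : M → ℝ} (hμ : A.Sm μ) :
    IsD A (fun i x => (μ x : ℂ) * f i x) where
  sm i := ContDiffOn.mul (smAt_ofReal (j := i) (hμ i)) (hf.sm i)
  tr i j x hx := by rw [hf.tr i j x hx]; ring

theorem isD_cmul {f : A.ι → M → ℂ} (hf : IsD A f) (c : ℂ) : IsD A (fun i x => c * f i x) where
  sm i := ContDiffOn.mul contDiffOn_const (hf.sm i)
  tr i j x hx := by rw [hf.tr i j x hx]; ring

theorem isD_add {f g : A.ι → M → ℂ} (hf : IsD A f) (hg : IsD A g) :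
    IsD A (fun i x => f i x + g i x) where
  sm i := ContDiffOn.add (hf.sm i) (hg.sm i)
  tr i j x hx := by rw [hf.tr i j x hx, hg.tr i j x hx]; ring

section Int

variable [T2Space M] [CompactSpace M]

theorem totc_mono (P : Part A) {f g : A.ι → M → ℂ} (hf : IsD A f) (hg : IsD A g)
    (h : ∀ i, ∀ x ∈ (A.e i).source, f i x ≤ g i x) : totc P f ≤ totc P g := by
  have h1 : IsD A (fun i x => g i x - f i x) :=
    { sm := fun i => ContDiffOn.sub (hg.sm i) (hf.sm i)
      tr := fun i j x hx => by rw [hf.tr i j x hx, hg.tr i j x hx]; ring }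
  have h2 := totc_nonneg P h1 fun i x hx => sub_nonneg.2 (h i x hx)
  unfold totc at h2 ⊢
  rwa [tot_sub P _ hg.sm hf.sm, sub_nonneg] at h2

theorem totc_small (P : Part A) {f : A.ι → M → ℂ} (hf : ∀ i, A.SmAt i (f i)) :
    ∃ C : ℝ, ∀ (μ : M → ℝ) (ε : ℝ), (∀ x, |μ x| ≤ ε) →
      ‖totc P (fun i x => (μ x : ℂ) * f i x)‖ ≤ ε * C := by
  refine ⟨∑ i ∈ Fn P (isCompact_univ : IsCompact (univ : Set M)),
    ∫ y, ‖rd A i (fun x => (P.ψ i x : ℂ) * f i x) y‖, fun μ ε hμ => ?_⟩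
  unfold totc tot
  rw [Finset.mul_sum]
  refine (norm_sum_le _ _).trans (Finset.sum_le_sum fun i _ => ?_)
  unfold SerG398.lint
  rw [← integral_const_mul]
  refine norm_integral_le_of_norm_le ((cc_psi P (hf i)).integrable.norm.const_mul ε)
    (Eventually.of_forall fun y => ?_)
  by_cases hy : y ∈ Ui A i
  · rw [rd_of_mem hy, rd_of_mem hy, mul_left_comm, norm_mul, Complex.norm_real, Real.norm_eq_abs]
    exact mul_le_mul_of_nonneg_right (hμ _) (norm_nonneg _)
  · rw [rd_off hy, rd_off hy]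
    simp

/-- the identity for holomorphic fields -/
theorem bkn_hol (P : Part A) (K : Kah A) (h : HM ((KB A)⁻¹ * N)) {v : A.ι → M → FI n → ℂ}
    (hv : IsV N v) (hh : ∀ i, ∀ x ∈ (A.e i).source, ∀ k, dbV v i k x = 0) :
    totc P (inG K h (delV h v) (delV h v)) = totc P (inT K h v v) := by
  have h1 := bknc P K h hv hv
  have hU : totc P (inU K h v v) = 0 := by
    have e1 : totc P (inU K h v v) = totc P (fun _ _ => 0) :=
      tot_congr P _ fun i _ x hx => by
        unfold inU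
        rw [duV_of_hol K hv.sm hh i hx]
        simp
    rw [e1, totc_zero]
  have hD : totc P (inD K h v v) = 0 := by
    have e1 : totc P (inD K h v v) = totc P (fun _ _ => 0) :=
      tot_congr P _ fun i _ x hx => by
        unfold inD T1
        simp [hh i x hx]
    rw [e1, totc_zero]
  rw [hD, hU, zero_add, zero_add] at h1
  exact h1.symm

end Int

/-! ### twisting the metric -/

theorem delV_tw (h : HM L) {f : M → ℝ} (hf : A.Sm f) {v : A.ι → M → FI n → ℂ}
    (hs : ∀ i T, A.SmAt i (fun x => v i x T)) (i : A.ι) {x : M} (hx : x ∈ (A.e i).source) :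
    delV (tw h f hf) v i x = delV h v i x -
      ∑ l, dl A i l (fun y => (f y : ℂ)) x • (iW (ep l) *ᵥ v i x) := by
  have hz := (A.e i).map_source hx
  rw [delV_eq _ hs i hx, delV_eq _ hs i hx]
  unfold del
  rw [← Finset.sum_sub_distrib]
  refine Finset.sum_congr rfl fun l _ => ?_
  have h1 : lamr (tw h f hf) i =ᶠ[𝓝 (A.e i x)]
      fun z => lamr h i z + - (f ((A.e i).symm z) : ℂ) := by
    filter_upwards [(A.e i).open_target.mem_nhds hz] with z hz'
    unfold lamr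
    rw [wt_tw h f hf i hz']
    push_cast
    ring
  have h2 : Sm (A.e i x) (fun z => (f ((A.e i).symm z) : ℂ)) := sm_rd (smAt_ofReal (hf i)) hz
  have h3 : rV v i (A.e i x) = v i x := by unfold rV; rw [(A.e i).left_inv hx]
  rw [dS_congr h1, dS_add (sm_lamr h i hz).diff (Sm.diff h2.neg), dS_neg, dl_eq_dS, h3, add_smul,
    ← add_assoc, Matrix.mulVec_add, neg_smul, Matrix.mulVec_neg, Matrix.mulVec_smul,
    sub_eq_add_neg]

variable {m : ℕ} {s v' : A.ι → M → ℂ}

/-- `-(1/m) log (σ + δ)` -/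
def fd (σ : M → ℝ) (m : ℕ) (δ : ℝ) (x : M) : ℝ := -(1 / (m : ℝ)) * Real.log (σ x + δ)

theorem fd_sm {σ : M → ℝ} (hσ : A.Sm σ) (h0 : ∀ x, 0 ≤ σ x) (m : ℕ) {δ : ℝ} (hδ : 0 < δ) :
    A.Sm (fd σ m δ) := fun i =>
  contDiffOn_const.mul (((hσ i).add contDiffOn_const).log fun z _ => by
    have := h0 ((A.e i).symm z)
    positivity)

theorem dl_fd {σ : M → ℝ} (hσ : A.Sm σ) (h0 : ∀ x, 0 ≤ σ x) (m : ℕ) {δ : ℝ} (hδ : 0 < δ)
    {i : A.ι} {x : M} (hx : x ∈ (A.e i).source) (l : Fin n) :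
    dl A i l (fun y => (fd σ m δ y : ℂ)) x =
      -(1 / (m : ℂ)) * ((σ x : ℂ) + δ)⁻¹ * dl A i l (fun y => (σ y : ℂ)) x := by
  have hz := (A.e i).map_source hx
  have hd : DifferentiableAt ℝ (fun z => σ ((A.e i).symm z)) (A.e i x) :=
    (sm_contDiffAt hσ i hz).differentiableAt (by simp)
  have hp : σ ((A.e i).symm (A.e i x)) + δ ≠ 0 := by
    have := h0 ((A.e i).symm (A.e i x))
    positivity
  have h1 : HasDerivAt (fun t : ℝ => -(1 / (m : ℝ)) * Real.log (t + δ))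
      (-(1 / (m : ℝ)) * (σ ((A.e i).symm (A.e i x)) + δ)⁻¹) (σ ((A.e i).symm (A.e i x))) := by
    have h2 := (((hasDerivAt_id (σ ((A.e i).symm (A.e i x)))).add_const δ).log hp).const_mul
      (-(1 / (m : ℝ)))
    simpa using h2
  have h2 := wd_comp_real (false, l) hd h1
  rw [wd_eq_dS, wd_eq_dS, (A.e i).left_inv hx] at h2
  rw [dl_eq_dS, dl_eq_dS]
  refine h2.trans ?_
  push_cast
  rfl

/-- the field `σ δ_h v + (1/m) i_{∂σ} v` -/
def Es (h : HM L) (σ : M → ℝ) (m : ℕ) (v : A.ι → M → FI n → ℂ) (i : A.ι) (x : M) : FI n → ℂ :=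
  (σ x : ℂ) • delV h v i x +
    (1 / (m : ℂ)) • ∑ l, dl A i l (fun y => (σ y : ℂ)) x • (iW (ep l) *ᵥ v i x)

theorem Es_eq (h : HM L) {σ : M → ℝ} (hσ : A.Sm σ) (h0 : ∀ x, 0 ≤ σ x) (m : ℕ) {δ : ℝ}
    (hδ : 0 < δ) {v : A.ι → M → FI n → ℂ} (hs : ∀ i T, A.SmAt i (fun x => v i x T)) (i : A.ι)
    {x : M} (hx : x ∈ (A.e i).source) :
    Es h σ m v i x = ((σ x + δ : ℝ) : ℂ) • delV (tw h (fd σ m δ) (fd_sm hσ h0 m hδ)) v i x -
      (δ : ℂ) • delV h v i x := by
  have hp : (σ x : ℂ) + δ ≠ 0 := by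
    have h1 := h0 x
    have h2 : σ x + δ ≠ 0 := by positivity
    exact_mod_cast h2
  rw [delV_tw h _ hs i hx]
  unfold Es
  simp only [dl_fd hσ h0 m hδ hx]
  rw [smul_sub, Finset.smul_sum, Finset.smul_sum]
  have h1 : ∀ l, ((σ x + δ : ℝ) : ℂ) • ((-(1 / (m : ℂ)) * ((σ x : ℂ) + δ)⁻¹ *
      dl A i l (fun y => (σ y : ℂ)) x) • (iW (ep l) *ᵥ v i x)) =
      - ((1 / (m : ℂ)) • dl A i l (fun y => (σ y : ℂ)) x • (iW (ep l) *ᵥ v i x)) := by
    intro l
    rw [smul_smul, smul_smul, ← neg_smul]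
    congr 1
    push_cast
    field_simp
  rw [Finset.sum_congr rfl fun l _ => h1 l, Finset.sum_neg_distrib]
  push_cast
  module

theorem Es_isV (h : HM ((KB A)⁻¹ * N)) {σ : M → ℝ} (hσ : A.Sm σ) (h0 : ∀ x, 0 ≤ σ x) (m : ℕ)
    {v : A.ι → M → FI n → ℂ} (hv : IsV N v) : IsV N (Es h σ m v) := by
  have h1 := delV_isV (tw h (fd σ m 1) (fd_sm hσ h0 m one_pos)) hv
  have h2 := delV_isV h hv
  constructor
  · intro i T
    have h3 : A.SmAt i (fun x => ((σ x + 1 : ℝ) : ℂ) *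
        delV (tw h (fd σ m 1) (fd_sm hσ h0 m one_pos)) v i x T - ((1 : ℝ) : ℂ) * delV h v i x T) :=
      ContDiffOn.sub (ContDiffOn.mul (smAt_ofReal (j := i) (χ := fun x => σ x + 1)
        (ContDiffOn.add (hσ i) contDiffOn_const)) (h1.sm i T))
        (ContDiffOn.mul contDiffOn_const (h2.sm i T))
    refine ContDiffOn.congr h3 fun z hz => ?_
    show Es h σ m v i _ T = _
    rw [Es_eq h hσ h0 m one_pos hv.sm i ((A.e i).map_target hz)]
    rfl
  · intro i j x hx
    rw [Es_eq h hσ h0 m one_pos hv.sm i hx.1, Es_eq h hσ h0 m one_pos hv.sm j hx.2,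
      h1.tr i j x hx, h2.tr i j x hx, Matrix.mulVec_sub, Matrix.mulVec_smul, Matrix.mulVec_smul]
    module

/-- the curvature of the twisted metric -/
theorem cur_fd (h : HM L) (hm : 0 < m) (hs : IsHS (L⁻¹ ^ m) univ s) {δ : ℝ} (hδ : 0 < δ)
    (i : A.ι) {x : M} (hx : x ∈ (A.e i).source) :
    (((δ / (sg (pow (inv h) m) s x + δ) : ℝ) : ℂ) • cur h i x -
      cur (tw h (fd (sg (pow (inv h) m) s) m δ)
        (fd_sm (sg_sm _ hs) (sg_nonneg _ s) m hδ)) i x).PosSemidef := by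
  have hz := (A.e i).map_source hx
  set H := pow (inv h) m with hH
  have hS : ∀ᶠ w in 𝓝 (A.e i x), DifferentiableAt ℂ (fun z => s i ((A.e i).symm z)) w := by
    filter_upwards [(A.e i).open_target.mem_nhds hz] with w hw
    have := (hs.hol i).diffAt isOpen_univ ((A.e i).map_target hw) (mem_univ _)
    rwa [(A.e i).right_inv hw] at this
  have hW : ContDiffAt ℝ ∞ (fun z => H.w i ((A.e i).symm z)) (A.e i x) :=
    ContDiffOn.contDiffAt (H.sm i) ((A.e i).open_target.mem_nhds hz)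
  have hW0 : 0 < H.w i ((A.e i).symm (A.e i x)) := H.pos i _ ((A.e i).map_target hz)
  have h1 := hess_lse hδ hS hW hW0
  rw [(A.e i).left_inv hx, ← sg_eq H hs hx] at h1
  have h2 : hess (fun w => Real.log (H.w i ((A.e i).symm w))) (A.e i x) = (m : ℂ) • cur h i x := by
    have h3 : cur H i x = - ((m : ℂ) • cur h i x) := by
      rw [hH, cur_pow _ _ _ hx, cur_inv _ _ hx, smul_neg]
    have h4 : cur H i x = - hess (fun w => Real.log (H.w i ((A.e i).symm w))) (A.e i x) :=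
      hess_neg (hW.log hW0.ne')
    exact neg_injective (h4.symm.trans h3)
  have hσ := sg_nonneg H s x
  have h5 : hsf A (fd (sg H s) m δ) i x = (-(1 / (m : ℝ)) : ℝ) • hess (fun w => Real.log
      (‖s i ((A.e i).symm w)‖ ^ 2 * H.w i ((A.e i).symm w) + δ)) (A.e i x) := by
    have h6 : (fun z => fd (sg H s) m δ ((A.e i).symm z)) =ᶠ[𝓝 (A.e i x)] fun w =>
        -(1 / (m : ℝ)) * Real.log (‖s i ((A.e i).symm w)‖ ^ 2 * H.w i ((A.e i).symm w) + δ) := by
      filter_upwards [(A.e i).open_target.mem_nhds hz] with w hw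
      unfold fd
      rw [sg_eq H hs ((A.e i).map_target hw)]
    unfold hsf
    rw [hess_congr h6, hess_const_mul]
    · rfl
    · refine ((((cd_hol hS).norm_sq ℝ).mul hW).add contDiffAt_const).log ?_
      positivity
  rw [cur_tw _ _ _ hx, h5]
  rw [h2] at h1
  have hm' : (0 : ℝ) < m := by exact_mod_cast hm
  have h7 := h1.smul (show (0 : ℝ) ≤ 1 / (m : ℝ) by positivity)
  convert h7 using 1
  ext a b
  simp only [Matrix.sub_apply, Matrix.add_apply, Matrix.smul_apply, smul_eq_mul,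
    Complex.real_smul]
  have h8 : ((sg H s x : ℂ) + δ) ≠ 0 := by
    have h9 : sg H s x + δ ≠ 0 := by positivity
    exact_mod_cast h9
  have h9 : (m : ℂ) ≠ 0 := by exact_mod_cast hm.ne'
  push_cast
  field_simp
  ring

/-! ### elementary inequalities -/

theorem rho_pow {t : ℝ} (ht : 0 < t) (hm : 0 < m) :
    Real.exp (- (-(1 / (m : ℝ)) * Real.log t)) ^ m = t := by
  have hm' : (m : ℝ) ≠ 0 := by exact_mod_cast hm.ne'
  rw [← Real.exp_nat_mul]
  have : (m : ℝ) * - (-(1 / (m : ℝ)) * Real.log t) = Real.log t := by field_simp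
  rw [this, Real.exp_log ht]

theorem mu_le {ρ ε : ℝ} (hε : 0 < ε) (hρ : 0 < ρ) (hm : 0 < m) (h : ε ^ m ≤ ρ ^ m) :
    ρ * (ε ^ m / ρ ^ m) ≤ ε := by
  obtain ⟨k, rfl⟩ := Nat.exists_eq_succ_of_ne_zero hm.ne'
  have h1 : ε ≤ ρ := (pow_le_pow_iff_left₀ hε.le hρ.le hm.ne').1 h
  have h2 : ε ^ k ≤ ρ ^ k := pow_le_pow_left₀ hε.le h1 k
  rw [pow_succ, pow_succ, ← mul_div_assoc, div_le_iff₀ (by positivity)]
  have h3 : 0 ≤ ε * ρ := by positivity
  nlinarith [mul_le_mul_of_nonneg_left h2 h3]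

theorem sq_le {ρ R : ℝ} (hρ : 0 < ρ) (hm : 0 < m) (hR : 1 ≤ R) (h : ρ ^ m ≤ R) :
    (ρ ^ m) ^ 2 ≤ R ^ 2 * ρ := by
  rcases le_total ρ 1 with h1 | h1
  · have h2 : (ρ ^ m) ^ 2 ≤ ρ := by
      rw [← pow_mul]
      exact pow_le_of_le_one hρ.le h1 (by omega)
    have h3 : 1 ≤ R ^ 2 := one_le_pow₀ hR
    nlinarith
  · have h2 : (ρ ^ m) ^ 2 ≤ R ^ 2 := pow_le_pow_left₀ (by positivity) h 2
    have h3 : 0 ≤ R ^ 2 := by positivity
    nlinarith

/-! ### the main estimate -/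

theorem es_zero [T2Space M] [CompactSpace M] (P : Part A) (K : Kah A) (h : HM ((KB A)⁻¹ * N))
    {v : A.ι → M → FI n → ℂ} (hv : IsV N v) (hh : ∀ i, ∀ x ∈ (A.e i).source, ∀ k, dbV v i k x = 0)
    (hm : 0 < m) (hs : IsHS (((KB A)⁻¹ * N)⁻¹ ^ m) univ s) (i : A.ι) {x : M}
    (hx : x ∈ (A.e i).source) : Es h (sg (pow (inv h) m) s) m v i x = 0 := by
  set σ := sg (pow (inv h) m) s with hσ
  have hσs : A.Sm σ := sg_sm _ hs
  have hσ0 : ∀ x, 0 ≤ σ x := sg_nonneg _ s
  have hE := Es_isV h hσs hσ0 m hv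
  obtain ⟨R0, hR0⟩ := (isCompact_range (cont_of_sm hσs)).bddAbove
  set R : ℝ := max R0 0 + 1 with hR
  have hR1 : 1 ≤ R := by have := le_max_right R0 0; linarith
  have hσR : ∀ y, σ y + 1 ≤ R := fun y => by
    have := (hR0 ⟨y, rfl⟩).trans (le_max_left R0 0)
    linarith
  obtain ⟨C, hC⟩ := totc_small P (inT_isD (K := K) h hv hv).sm
  have hd := delV_isV h hv
  set Z := totc P (inG K h (Es h σ m v) (Es h σ m v)) with hZ
  set Y := totc P (inG K h (delV h v) (delV h v)) with hY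
  have hZ0 : 0 ≤ Z := totc_nonneg P (inG_isD h hE hE) fun i x hx => inG_nonneg K h _ i hx
  have key : ∀ ε : ℝ, 0 < ε → ε ≤ 1 → Z.re ≤ ε * (2 * R ^ 2 * C + 2 * ‖Y‖) := by
    intro ε hε hε1
    have hδ : 0 < ε ^ m := by positivity
    have hδ1 : ε ^ m ≤ ε := pow_le_of_le_one hε.le hε1 hm.ne'
    set h' := tw h (fd σ m (ε ^ m)) (fd_sm hσs hσ0 m hδ) with hh'
    have hd' := delV_isV h' hv
    have hρ : ∀ y, Real.exp (- fd σ m (ε ^ m) y) ^ m = σ y + ε ^ m := fun y =>
      rho_pow (by have := hσ0 y; positivity) hm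
    -- first inequality
    have h1 : Z ≤ totc P (fun i x => (2 * (R : ℂ) ^ 2) * inG K h' (delV h' v) (delV h' v) i x +
        (2 * ((ε ^ m : ℝ) : ℂ) ^ 2) * inG K h (delV h v) (delV h v) i x) := by
      refine totc_mono P (inG_isD h hE hE) (isD_add (isD_cmul (inG_isD h' hd' hd') _)
        (isD_cmul (inG_isD h hd hd) _)) fun j y hy => ?_
      unfold inG
      rw [Es_eq h hσs hσ0 m hδ hv.sm j hy]
      have hG := (G_posDef K j hy).posSemidef
      refine (mul_le_mul_of_nonneg_left (quad_le hG _ _ _ _) (w_nonneg h j hy)).trans ?_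
      have h2 : (0 : ℂ) ≤ star (delV h' v j y) ⬝ᵥ (Gam (K.g j y)ᵀ *ᵥ delV h' v j y) :=
        hG.dotProduct_mulVec_nonneg _
      have h3 : (σ y + ε ^ m) ^ 2 ≤ R ^ 2 * Real.exp (- fd σ m (ε ^ m) y) := by
        rw [← hρ y]
        refine sq_le (Real.exp_pos _) hm hR1 ?_
        rw [hρ y]
        have := hσR y
        linarith
      have h4 : h.w j y * (2 * (σ y + ε ^ m) ^ 2) ≤
          2 * R ^ 2 * (h.w j y * Real.exp (- fd σ m (ε ^ m) y)) := by
        have := h.pos j y hy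
        nlinarith
      have h5 : ((h.w j y * (2 * (σ y + ε ^ m) ^ 2) : ℝ) : ℂ) ≤
          ((2 * R ^ 2 * (h.w j y * Real.exp (- fd σ m (ε ^ m) y)) : ℝ) : ℂ) := by
        exact_mod_cast h4
      have h6 := mul_le_mul_of_nonneg_right h5 h2
      have h7 : (h'.w j y : ℂ) = ((h.w j y * Real.exp (- fd σ m (ε ^ m) y) : ℝ) : ℂ) := rfl
      rw [h7, mul_add]
      refine add_le_add (le_of_eq_of_le ?_ (h6.trans (le_of_eq ?_))) (le_of_eq ?_)
      · push_cast; ring
      · push_cast; ring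
      · ring
    -- second inequality
    set μ : M → ℝ := fun y => Real.exp (- fd σ m (ε ^ m) y) * (ε ^ m / (σ y + ε ^ m)) with hμ
    have hμs : A.Sm μ := fun j =>
      (Real.contDiff_exp.comp_contDiffOn (fd_sm hσs hσ0 m hδ j).neg).mul
        (contDiffOn_const.div ((hσs j).add contDiffOn_const) fun z _ => by
          have := hσ0 ((A.e j).symm z)
          positivity)
    have h2 : totc P (inT K h' v v) ≤ totc P (fun i x => (μ x : ℂ) * inT K h v v i x) := by
      refine totc_mono P (inT_isD h' hv hv) (isD_mul (inT_isD h hv hv) hμs) fun j y hy => ?_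
      have h3 := Cv_nonneg (G_posDef K j hy).posSemidef (cur_fd h hm hs hδ j hy) (v j y)
      rw [Cv_sub, sub_nonneg] at h3
      unfold inT
      refine (mul_le_mul_of_nonneg_left h3 (w_nonneg h' j hy)).trans (le_of_eq ?_)
      have h7 : (h'.w j y : ℂ) = ((h.w j y * Real.exp (- fd σ m (ε ^ m) y) : ℝ) : ℂ) := rfl
      rw [h7, hμ]
      simp only [← hσ]
      push_cast
      ring
    have h3 := hC μ ε fun y => by
      have h4 := hσ0 y
      rw [abs_of_nonneg (by rw [hμ]; positivity), hμ]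
      simp only
      rw [← hρ y]
      refine mu_le hε (Real.exp_pos _) hm ?_
      rw [hρ y]
      linarith
    unfold totc at h1
    rw [tot_add P _ (isD_cmul (inG_isD h' hd' hd') _).sm (isD_cmul (inG_isD h hd hd) _).sm,
      tot_smul, tot_smul] at h1
    have h4 := bkn_hol P K h' hv hh
    unfold totc at h4 h2 h3
    rw [h4] at h1
    have h5 := (Complex.le_def.1 h1).1
    have h6 := (Complex.le_def.1 h2).1
    have h7 := (Complex.re_le_norm _).trans h3
    have h8 : (2 * (R : ℂ) ^ 2) = ((2 * R ^ 2 : ℝ) : ℂ) := by push_cast; ring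
    have h9 : (2 * ((ε ^ m : ℝ) : ℂ) ^ 2) = ((2 * (ε ^ m) ^ 2 : ℝ) : ℂ) := by push_cast; ring
    rw [h8, h9, Complex.add_re, Complex.re_ofReal_mul, Complex.re_ofReal_mul] at h5
    have h10 : (tot P (Fn P (isCompact_univ : IsCompact (univ : Set M)))
        (inG K h (delV h v) (delV h v))).re ≤ ‖Y‖ := Complex.re_le_norm _
    have h11 : (ε ^ m) ^ 2 ≤ ε := by nlinarith
    have h12 : 0 ≤ ‖Y‖ := norm_nonneg _
    have h13 : 0 ≤ 2 * R ^ 2 := by positivity
    have h14 := mul_le_mul_of_nonneg_left (h6.trans h7) h13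
    have h15 : 2 * (ε ^ m) ^ 2 * (tot P (Fn P (isCompact_univ : IsCompact (univ : Set M)))
        (inG K h (delV h v) (delV h v))).re ≤ 2 * ε * ‖Y‖ := by
      have h16 := mul_le_mul_of_nonneg_left h10 (show 0 ≤ 2 * (ε ^ m) ^ 2 by positivity)
      nlinarith
    have h17 : Z.re = (tot P (Fn P (isCompact_univ : IsCompact (univ : Set M)))
        (inG K h (Es h σ m v) (Es h σ m v))).re := rfl
    rw [h17]
    nlinarith
  have hZ1 : Z.re ≤ 0 := by
    have h1 : Tendsto (fun ε : ℝ => ε * (2 * R ^ 2 * C + 2 * ‖Y‖)) (𝓝[>] 0)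
        (𝓝 (0 * (2 * R ^ 2 * C + 2 * ‖Y‖))) :=
      ((continuous_id.mul continuous_const).tendsto 0).mono_left nhdsWithin_le_nhds
    rw [zero_mul] at h1
    refine ge_of_tendsto h1 ?_
    filter_upwards [Ioc_mem_nhdsGT (show (0 : ℝ) < 1 from one_pos)] with ε hε
    exact key ε hε.1 hε.2
  have hZ2 : Z = 0 := by
    have h1 := Complex.le_def.1 hZ0
    apply Complex.ext
    · exact le_antisymm hZ1 h1.1
    · exact h1.2.symm
  exact inG_eq_zero hx (totc_eq_zero P (inG_isD h hE hE)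
    (fun i x hx => inG_nonneg K h _ i hx) hZ2 i hx)

end

end Crest.Agent.X261.E0.ClB
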