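import Crest.Agent.X261.E0.ClB
import Crest.Agent.X261.E0.Defs

/-!
# X261 (S0399), E0 (helper69), CLOSED part C: `(t ds - s dt) ∧ e = 0`

`closed` : for a sheaf map `e : L → Ω^p` on a compact Kaehler manifold and sections `s`, `t` of
`L ^ m` one has `(t ds - s dt) ∧ e = 0` (Bogomolov).
-/

set_option autoImplicit false
set_option linter.unusedSectionVars false

open Set Filter Topology Complex Matrix
open scoped ContDiff Matrix ComplexConjugate ComplexOrder

namespace Crest.Agent.X261.E0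

open Crest.Agent.R275 Crest.Agent.R275.Geo Crest.Agent.R275.Core144
open Crest.Agent.R275.OmT75 (dl)
open Crest.Agent.R273
open Crest.Agent.R273.Defs_333 Crest.Agent.R273.HM_333 Crest.Agent.R273.Kah_333
open Crest.Agent.R273.Fock_243 Crest.Agent.R273.Calc_243
open Crest.Agent.R273.StV_37 Crest.Agent.R273.BKNa_37
open Crest.Agent.R273.HolF_578 (SFi Sb_Gam Jm_inv det_Jm)
open Crest.Agent.R273.Berezin_505 (Sb Sbi epsn)
open Crest.Agent.X261.E0.ClB

noncomputable section

variable {n p m : ℕ} {M : Type} [TopologicalSpace M] {A : Atl n M} {L : LB A}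
  {e : A.ι → M → FI n → ℂ} {s t : A.ι → M → ℂ}

theorem TOm.hol_SFi (he : TOm L p e) (i : A.ι) (T : FI n) :
    HolAt A i univ (fun x => SFi e i x T) := by
  refine ((he.hol i Tᶜ).const_mul (epsn ℂ n * Berezin_505.eps ℂ T)).congr fun x _ _ => ?_
  unfold SFi
  rw [Berezin_505.Sbi_mulVec]

/-- the polyvector field of a twisted form -/
theorem TOm.isV (he : TOm L p e) : IsV (KB A * L⁻¹) (SFi e) where
  sm i T := smAt_hol (he.hol_SFi i T)
  tr i j x hx := by
    unfold SFi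
    have h5 : Sbi ℂ n * Gam (Jm A i j x)ᵀ = (Jm A i j x).det • (Gam (Jm A j i x) * Sbi ℂ n) := by
      have h6 := Sb_Gam (m' := Jm A i j x) (Jm_inv hx)
      have h7 := congrArg (fun X => (Jm A i j x).det • (Sbi ℂ n * X * Sbi ℂ n)) h6
      rw [Matrix.mul_smul, Matrix.smul_mul, smul_smul, mul_comm ((Jm A i j x).det), det_Jm hx,
        one_smul] at h7
      simp only [← Matrix.mul_assoc, Berezin_505.Sbi_mul_Sb, Matrix.one_mul] at h7
      rw [h7]
      simp only [Matrix.mul_assoc, Berezin_505.Sb_mul_Sbi, Matrix.mul_one]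
    rw [he.tr i j x hx, LB.mul_g, LB.inv_g, KB_g hx, Matrix.mulVec_smul, Matrix.mulVec_mulVec, h5,
      Matrix.smul_mulVec, smul_smul, mul_comm, Matrix.mulVec_mulVec]

theorem eW_of_iW {w : Fin n → ℂ} {u : FI n → ℂ} (h : iW w *ᵥ (Sbi ℂ n *ᵥ u) = 0) :
    eW w *ᵥ u = 0 := by
  have h1 := Berezin_505.Sbi_skew (R := ℂ) (0 : Fin n → ℂ) w
  have h2 : Sbi ℂ n * eW w + iW w * Sbi ℂ n = 0 := by
    rw [← iW_transpose]
    exact h1
  have h3 : Sbi ℂ n *ᵥ (eW w *ᵥ u) = 0 := by
    have h4 := congrArg (fun X => X *ᵥ u) h2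
    simp only [Matrix.add_mulVec, Matrix.zero_mulVec, ← Matrix.mulVec_mulVec] at h4
    rwa [h, add_zero] at h4
  have h4 := congrArg (fun y => Sb ℂ n *ᵥ y) h3
  simp only [Matrix.mulVec_mulVec, ← Matrix.mul_assoc, Berezin_505.Sb_mul_Sbi, Matrix.one_mul,
    Matrix.mulVec_zero] at h4
  exact h4

theorem dl_sg {L' : LB A} (H : HM L') (hs : IsHS L' univ s) {i : A.ι} {x : M}
    (hx : x ∈ (A.e i).source) (l : Fin n) :
    dl A i l (fun y => (sg H s y : ℂ)) x = conj (s i x) * (H.w i x : ℂ) * dl A i l (s i) x +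
      s i x * conj (s i x) * dl A i l (fun y => (H.w i y : ℂ)) x := by
  have hz := (A.e i).map_source hx
  have h1 : (fun z => (sg H s ((A.e i).symm z) : ℂ)) =ᶠ[𝓝 (A.e i x)] fun z =>
      (s i ((A.e i).symm z) * conj (s i ((A.e i).symm z))) * (H.w i ((A.e i).symm z) : ℂ) := by
    filter_upwards [(A.e i).open_target.mem_nhds hz] with z hz'
    rw [sg_eq H hs ((A.e i).map_target hz'), Complex.mul_conj, Complex.normSq_eq_norm_sq]
    push_cast
    ring
  have hS : Sm (A.e i x) (fun z => s i ((A.e i).symm z)) := sm_rd (smAt_hol (hs.hol i)) hz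
  have hW : Sm (A.e i x) (fun z => (H.w i ((A.e i).symm z) : ℂ)) :=
    sm_rd (C1d194.smAt_ofReal (H.sm i)) hz
  have h2 : dS (-I) l (fun z => conj (s i ((A.e i).symm z))) (A.e i x) = 0 := by
    rw [dS_conj hS.diff, map_neg, conj_I, neg_neg,
      dS_hol ((hs.hol i).diffAt isOpen_univ hx (mem_univ _)), map_zero]
  rw [dl_eq_dS, dl_eq_dS, dl_eq_dS, dS_congr h1, dS_mul (Sm.diff (hS.mul hS.conj)) hW.diff,
    dS_mul hS.diff hS.conj.diff, h2, (A.e i).left_inv hx]
  ring

theorem zero_of_dense {Y : Type*} [TopologicalSpace Y] {F f : Y → ℂ} {x : Y}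
    (hF : ContinuousAt F x) (h1 : ∀ᶠ y in 𝓝 x, f y ≠ 0 → F y = 0)
    (h2 : (∀ᶠ y in 𝓝 x, f y = 0) → F x = 0) : F x = 0 := by
  by_contra h0
  refine h0 (h2 ?_)
  filter_upwards [h1, hF.eventually_ne h0] with y hy hy'
  by_contra h3
  exact hy' (hy h3)

theorem dl_of_zero {i : A.ι} {f : M → ℂ} {x : M} (hx : x ∈ (A.e i).source)
    (h : ∀ᶠ y in 𝓝 x, f y = 0) (a : Fin n) : dl A i a f x = 0 := by
  have h1 : (fun z => f ((A.e i).symm z)) =ᶠ[𝓝 (A.e i x)] fun _ => 0 := by
    have h2 : Tendsto (A.e i).symm (𝓝 (A.e i x)) (𝓝 x) := (A.e i).tendsto_symm hx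
    exact h2.eventually h
  rw [dl_eq_dS, dS_congr h1, dS_const]

/-- **Bogomolov's closedness** -/
theorem closed [T2Space M] [CompactSpace M] [Finite A.ι] (P : Part A) (K : Kah A)
    (he : TOm L p e) : Closed L e := by
  intro m hm s t hs ht i
  obtain ⟨h⟩ := exists_hm P ((KB A)⁻¹ * (KB A * L⁻¹))
  have hL : ((KB A)⁻¹ * (KB A * L⁻¹))⁻¹ = L := by rw [inv_mul_cancel_left, inv_inv]
  have hh : ∀ i, ∀ x ∈ (A.e i).source, ∀ k, dbV (SFi e) i k x = 0 := fun i x hx k => by
    funext T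
    exact (he.hol_SFi i T).db_zero isOpen_univ hx (mem_univ _) k
  have hs' : IsHS (((KB A)⁻¹ * (KB A * L⁻¹))⁻¹ ^ m) univ s := by rwa [hL]
  have ht' : IsHS (((KB A)⁻¹ * (KB A * L⁻¹))⁻¹ ^ m) univ t := by rwa [hL]
  set H := pow (inv h) m with hH
  -- the generic case
  have gen : ∀ x ∈ (A.e i).source, s i x ≠ 0 → t i x ≠ 0 → eW (Wr A s t i x) *ᵥ e i x = 0 := by
    intro x hx h1 h2
    have e1 := es_zero P K h he.isV hh hm hs' i hx
    have e2 := es_zero P K h he.isV hh hm ht' i hx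
    unfold Es at e1 e2
    simp only [← hH, dl_sg H hs' hx, dl_sg H ht' hx, add_smul, Finset.sum_add_distrib,
      mul_smul, ← Finset.smul_sum] at e1 e2
    rw [sg_eq H hs' hx] at e1
    rw [sg_eq H ht' hx] at e2
    refine eW_of_iW ?_
    have hW : (H.w i x : ℂ) ≠ 0 := by exact_mod_cast (H.pos i x hx).ne'
    have hm' : (m : ℂ) ≠ 0 := by exact_mod_cast hm.ne'
    have hc : (1 / (m : ℂ)) * conj (s i x) * conj (t i x) * (H.w i x : ℂ) ≠ 0 :=
      mul_ne_zero (mul_ne_zero (mul_ne_zero (one_div_ne_zero hm') ((map_ne_zero _).2 h1))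
        ((map_ne_zero _).2 h2)) hW
    refine smul_right_injective _ hc ?_
    have e3 : iW (Wr A s t i x) *ᵥ (Sbi ℂ n *ᵥ e i x) =
        t i x • ∑ l, dl A i l (s i) x • (iW (ep l) *ᵥ SFi e i x) -
          s i x • ∑ l, dl A i l (t i) x • (iW (ep l) *ᵥ SFi e i x) := by
      rw [iW_eq_sum, Matrix.sum_mulVec, Finset.smul_sum, Finset.smul_sum, ← Finset.sum_sub_distrib]
      refine Finset.sum_congr rfl fun l _ => ?_
      rw [Matrix.smul_mulVec, smul_smul, smul_smul, ← sub_smul]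
      rfl
    have n1 : ((‖s i x‖ ^ 2 * H.w i x : ℝ) : ℂ) = s i x * conj (s i x) * (H.w i x : ℂ) := by
      rw [Complex.mul_conj, Complex.normSq_eq_norm_sq]; push_cast; ring
    have n2 : ((‖t i x‖ ^ 2 * H.w i x : ℝ) : ℂ) = t i x * conj (t i x) * (H.w i x : ℂ) := by
      rw [Complex.mul_conj, Complex.normSq_eq_norm_sq]; push_cast; ring
    rw [n1] at e1
    rw [n2] at e2
    show _ • _ = _ • (0 : FI n → ℂ)
    rw [e3, smul_zero]
    linear_combination (norm := module) (t i x * conj (t i x)) • e1 - (s i x * conj (s i x)) • e2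
  -- continuity
  have hsc : ∀ x ∈ (A.e i).source, ContinuousAt (s i) x := fun x hx =>
    contAt_of_smAt (smAt_hol (hs.hol i)) hx
  have htc : ∀ x ∈ (A.e i).source, ContinuousAt (t i) x := fun x hx =>
    contAt_of_smAt (smAt_hol (ht.hol i)) hx
  have hF : ∀ T, ∀ x ∈ (A.e i).source,
      ContinuousAt (fun y => (eW (Wr A s t i y) *ᵥ e i y) T) x := by
    intro T x hx
    have h1 : (fun y => (eW (Wr A s t i y) *ᵥ e i y) T) =
        fun y => ∑ a, Wr A s t i y a * ∑ U, (eW (ep a) : Matrix _ _ ℂ) T U * e i y U := by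
      funext y
      rw [eW_eq_sum, Matrix.sum_mulVec, Finset.sum_apply]
      refine Finset.sum_congr rfl fun a _ => ?_
      rw [Matrix.smul_mulVec]
      rfl
    rw [h1]
    refine tendsto_finsetSum _ fun a _ => ContinuousAt.mul ?_
      (tendsto_finsetSum _ fun U _ => continuousAt_const.mul
        (contAt_of_smAt (smAt_hol (he.hol i U)) hx))
    exact ((htc x hx).mul (contAt_of_smAt (smAt_dl (smAt_hol (hs.hol i)) a) hx)).sub
      ((hsc x hx).mul (contAt_of_smAt (smAt_dl (smAt_hol (ht.hol i)) a) hx))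
  have hWs : ∀ x ∈ (A.e i).source, (∀ᶠ y in 𝓝 x, s i y = 0) → Wr A s t i x = 0 := by
    intro x hx h0
    funext a
    unfold Wr
    rw [dl_of_zero hx h0, h0.self_of_nhds]
    simp
  have hWt : ∀ x ∈ (A.e i).source, (∀ᶠ y in 𝓝 x, t i y = 0) → Wr A s t i x = 0 := by
    intro x hx h0
    funext a
    unfold Wr
    rw [dl_of_zero hx h0, h0.self_of_nhds]
    simp
  have gen2 : ∀ T, ∀ x ∈ (A.e i).source, s i x ≠ 0 → (eW (Wr A s t i x) *ᵥ e i x) T = 0 := by
    intro T x hx h1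
    refine zero_of_dense (f := t i) (hF T x hx) ?_ fun h0 => ?_
    · filter_upwards [(A.e i).open_source.mem_nhds hx, (hsc x hx).eventually_ne h1] with y hy hy' h2
      rw [gen y hy hy' h2]
      rfl
    · rw [hWt x hx h0]
      simp
  intro x hx
  funext T
  refine zero_of_dense (f := s i) (hF T x hx) ?_ fun h0 => ?_
  · filter_upwards [(A.e i).open_source.mem_nhds hx] with y hy h2
    exact gen2 T y hy h2
  · rw [hWs x hx h0]
    simp

theorem closedStmt : ClosedStmt := fun _ _ _ _ _ _ _ _ P K _ _ _ he => closed P K he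

end

end Crest.Agent.X261.E0
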