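import Crest.Agent.R273.Sg2_101
import Crest.Agent.R273.Fock_243

/-!
# X261 (S0399), E0/Up (helper36), part A: local lemmas

* `Ord f z k`    : `f (z + y) = O (‖y‖ ^ k)`; `ord_iff` : the Taylor series starts in degree `k`;
* `Ord.fderiv`   : the Cauchy estimate;
* `ord_of_slice` : a function which is "constant along a distribution up to a factor" vanishes to
                   order `D` as soon as it does so on a transversal;
* `schwarzO`     : the Schwarz lemma of order `k`;
* `finrank_ann_le`, `exists_transv` : the annihilator of a nonzero `p`-vector has dimension `≤ p`.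
-/

set_option autoImplicit false
set_option linter.unusedSectionVars false

open Set Filter Topology Complex Metric Asymptotics Matrix
open scoped NNReal ENNReal

namespace Crest.Agent.X261.E0.UpL

open Crest.Agent.R275.Geo Crest.Agent.R273.Sg1_101
open Crest.Agent.R273.Fock_243 Crest.Agent.R275.Kos798

noncomputable section

section Ord

variable {E : Type*} [NormedAddCommGroup E] [NormedSpace ℂ E]

/-- `f` vanishes to order `k` at `z` -/
def Ord (f : E → ℂ) (z : E) (k : ℕ) : Prop :=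
  (fun y => f (z + y)) =O[𝓝 (0 : E)] fun y => ‖y‖ ^ k

theorem pow_isBigO {j k : ℕ} (h : j ≤ k) :
    (fun y : E => ‖y‖ ^ k) =O[𝓝 (0 : E)] fun y => ‖y‖ ^ j := by
  refine IsBigO.of_bound 1 ?_
  filter_upwards [closedBall_mem_nhds (0 : E) one_pos] with y hy
  rw [mem_closedBall, dist_zero_right] at hy
  rw [one_mul, norm_pow, norm_pow, norm_norm]
  exact pow_le_pow_of_le_one (norm_nonneg _) hy h

theorem Ord.mono {f : E → ℂ} {z : E} {j k : ℕ} (h : Ord f z k) (hj : j ≤ k) : Ord f z j :=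
  IsBigO.trans h (pow_isBigO hj)

theorem ord_zero {f : E → ℂ} {z : E} (hf : ContinuousAt f z) : Ord f z 0 := by
  have h1 : ContinuousAt (fun y => f (z + y)) 0 :=
    ContinuousAt.comp (by rwa [add_zero]) (by fun_prop)
  have h2 := h1.tendsto.isBigO_one ℝ
  unfold Ord
  simpa using h2

theorem ord_iff_ps {f : E → ℂ} {z : E} {q : FormalMultilinearSeries ℂ E ℂ}
    (hq : HasFPowerSeriesAt f q z) (k : ℕ) :
    Ord f z k ↔ ∀ j < k, ∀ y, q j (fun _ => y) = 0 := by
  constructor
  · intro h j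
    induction j using Nat.strong_induction_on with
    | _ j ih =>
      intro hj
      have h1 := hq.isBigO_sub_partialSum_pow (j + 1)
      have h2 : ∀ y, q.partialSum (j + 1) y = q j (fun _ => y) := by
        intro y
        rw [FormalMultilinearSeries.partialSum, Finset.sum_range_succ,
          Finset.sum_eq_zero fun i hi => ih i (Finset.mem_range.1 hi)
            ((Finset.mem_range.1 hi).trans hj) y, zero_add]
      simp only [h2] at h1
      have h3 := (IsBigO.sub (h.mono (Nat.succ_le_of_lt hj)) h1)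
      simp only [sub_sub_cancel] at h3
      exact h3.continuousMultilinearMap_apply_eq_zero
  · intro h
    have h1 := hq.isBigO_sub_partialSum_pow k
    have h2 : ∀ y, q.partialSum k y = 0 := fun y =>
      Finset.sum_eq_zero fun i hi => h i (Finset.mem_range.1 hi) y
    simp only [h2, sub_zero] at h1
    exact h1

theorem ord_iff [CompleteSpace E] {f : E → ℂ} {z : E} (hf : AnalyticAt ℂ f z) (k : ℕ) :
    Ord f z k ↔ ∀ j < k, ∀ y, iteratedFDeriv ℂ j f z (fun _ => y) = 0 := by
  obtain ⟨q, r, hq⟩ := hf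
  rw [ord_iff_ps hq.hasFPowerSeriesAt]
  refine forall₂_congr fun j _ => forall_congr' fun y => ?_
  rw [← hq.factorial_smul y j, smul_eq_zero, or_iff_right (Nat.factorial_ne_zero j)]

/-- the Cauchy estimate -/
theorem Ord.fderiv {f : E → ℂ} {z : E} {d : ℕ} (hf : AnalyticAt ℂ f z) (h : Ord f z d) :
    (fun y => ‖y‖ * ‖fderiv ℂ f (z + y)‖) =O[𝓝 (0 : E)] fun y => ‖y‖ ^ d := by
  obtain ⟨C, hC0, hC⟩ := IsBigO.exists_nonneg h
  have h0 : Tendsto (fun y => z + y) (𝓝 (0 : E)) (𝓝 z) := by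
    have : Continuous fun y : E => z + y := by fun_prop
    simpa using this.tendsto 0
  have h1 : ∀ᶠ y in 𝓝 (0 : E), AnalyticAt ℂ f (z + y) := h0.eventually hf.eventually_analyticAt
  obtain ⟨δ, hδ, hb⟩ := Metric.eventually_nhds_iff_ball.1 (hC.bound.and h1)
  refine IsBigO.of_bound (C * 2 ^ d) ?_
  filter_upwards [ball_mem_nhds (0 : E) (half_pos hδ)] with y hy
  rw [mem_ball, dist_zero_right] at hy
  rw [Real.norm_of_nonneg (by positivity), Real.norm_of_nonneg (by positivity)]
  rcases (norm_nonneg y).eq_or_lt with hy0 | hy0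
  · rw [← hy0, zero_mul]
    positivity
  rw [← le_div_iff₀' hy0]
  refine ContinuousLinearMap.opNorm_le_bound' _ (by positivity) fun v hv => ?_
  have hv0 : 0 < ‖v‖ := (norm_nonneg v).lt_of_ne' hv
  set ρ : ℝ := ‖y‖ / ‖v‖ with hρ
  have hρ0 : 0 < ρ := by positivity
  have hn : ∀ ζ ∈ closedBall (0 : ℂ) ρ, ‖y + ζ • v‖ ≤ 2 * ‖y‖ := by
    intro ζ hζ
    rw [mem_closedBall, dist_zero_right] at hζ
    have h2 : ‖ζ‖ * ‖v‖ ≤ ‖y‖ := by
      rw [← le_div_iff₀ hv0]
      exact hζ
    calc ‖y + ζ • v‖ ≤ ‖y‖ + ‖ζ • v‖ := norm_add_le _ _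
      _ ≤ 2 * ‖y‖ := by rw [norm_smul]; linarith
  have hm : ∀ ζ ∈ closedBall (0 : ℂ) ρ, y + ζ • v ∈ ball (0 : E) δ := fun ζ hζ => by
    rw [mem_ball, dist_zero_right]
    linarith [hn ζ hζ]
  have hd : DifferentiableOn ℂ (fun ζ : ℂ => f (z + (y + ζ • v))) (closedBall 0 ρ) := by
    intro ζ hζ
    refine DifferentiableAt.differentiableWithinAt ?_
    exact DifferentiableAt.comp (g := f) ζ (hb _ (hm ζ hζ)).2.differentiableAt (by fun_prop)
  have h3 := Complex.norm_deriv_le_of_forall_mem_sphere_norm_le (c := 0) (C := C * (2 * ‖y‖) ^ d)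
    hρ0 (hd.diffContOnCl_ball subset_rfl) fun ζ hζ => by
      have h4 := (hb _ (hm ζ (sphere_subset_closedBall hζ))).1
      rw [norm_pow, norm_norm] at h4
      refine h4.trans ?_
      have := hn ζ (sphere_subset_closedBall hζ)
      gcongr
  have h5 : HasDerivAt (fun ζ : ℂ => f (z + (y + ζ • v))) (_root_.fderiv ℂ f (z + y) v) 0 := by
    have h6 : HasDerivAt (fun ζ : ℂ => z + (y + ζ • v)) v 0 := by
      simpa using (((hasDerivAt_id (0 : ℂ)).smul_const v).const_add y).const_add z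
    have h7 : HasFDerivAt f (_root_.fderiv ℂ f (z + y)) (z + (y + (0 : ℂ) • v)) := by
      rw [zero_smul, add_zero]
      exact (hb y (by rw [mem_ball, dist_zero_right]; linarith)).2.differentiableAt.hasFDerivAt
    exact h7.comp_hasDerivAt (0 : ℂ) h6
  rw [h5.deriv] at h3
  refine h3.trans (le_of_eq ?_)
  rw [hρ, mul_pow]
  field_simp

variable {W P : Type*} [NormedAddCommGroup W] [NormedSpace ℂ W] [NormedAddCommGroup P]
  [NormedSpace ℂ P]

/-- **order of vanishing can be read on a transversal** -/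
theorem ord_of_slice {f : E → ℂ} {z : E} (hf : AnalyticAt ℂ f z) (Λ : E → W →L[ℂ] E)
    (hΛ : (fun y => Λ (z + y) - Λ z) =O[𝓝 (0 : E)] fun y => ‖y‖)
    (hK : (fun y => (fderiv ℂ f (z + y)).comp (Λ (z + y))) =O[𝓝 (0 : E)] fun y => f (z + y))
    (B : P →L[ℂ] E) (R₁ : E →L[ℂ] P) (R₂ : E →L[ℂ] W) (hR : ∀ y, B (R₁ y) + Λ z (R₂ y) = y)
    {D : ℕ} (hD : Ord (fun w => f (z + B w)) 0 D) : Ord f z D := by
  suffices h : ∀ d ≤ D, Ord f z d from h D le_rfl
  intro d
  induction d with
  | zero => exact fun _ => ord_zero hf.continuousAt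
  | succ d ih =>
    intro hd
    have h1 := ih (Nat.le_of_succ_le hd)
    have h2 : (fun y => (fderiv ℂ f (z + y)).comp (Λ (z + y) - Λ z)) =O[𝓝 (0 : E)]
        fun y => ‖y‖ ^ d := by
      refine IsBigO.trans ?_ (h1.fderiv hf)
      obtain ⟨C, hC0, hC⟩ := hΛ.exists_nonneg
      refine IsBigO.of_bound C ?_
      filter_upwards [hC.bound] with y hy
      rw [norm_norm] at hy
      rw [Real.norm_of_nonneg (by positivity)]
      refine (ContinuousLinearMap.opNorm_comp_le _ _).trans ?_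
      calc ‖fderiv ℂ f (z + y)‖ * ‖Λ (z + y) - Λ z‖ ≤ ‖fderiv ℂ f (z + y)‖ * (C * ‖y‖) := by
            gcongr
        _ = C * (‖y‖ * ‖fderiv ℂ f (z + y)‖) := by ring
    have h3 : (fun y => (fderiv ℂ f (z + y)).comp (Λ z)) =O[𝓝 (0 : E)] fun y => ‖y‖ ^ d := by
      refine ((hK.trans h1).sub h2).congr_left fun y => ?_
      rw [ContinuousLinearMap.comp_sub, sub_sub_cancel]
    obtain ⟨C, hC0, hC⟩ := h3.exists_nonneg
    have h0 : Tendsto (fun y => z + y) (𝓝 (0 : E)) (𝓝 z) := by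
      have : Continuous fun y : E => z + y := by fun_prop
      simpa using this.tendsto 0
    have h4 : ∀ᶠ y in 𝓝 (0 : E), AnalyticAt ℂ f (z + y) := h0.eventually hf.eventually_analyticAt
    obtain ⟨δ, hδ, hb⟩ := Metric.eventually_nhds_iff_ball.1 (hC.bound.and h4)
    set c : ℝ := ‖B‖ * ‖R₁‖ + ‖Λ z‖ * ‖R₂‖ + 1 with hc
    have hc0 : 0 < c := by positivity
    -- the difference along the distribution
    have h5 : (fun y => f (z + y) - f (z + B (R₁ y))) =O[𝓝 (0 : E)] fun y => ‖y‖ ^ (d + 1) := by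
      refine IsBigO.of_bound (C * c ^ d * ‖R₂‖) ?_
      filter_upwards [ball_mem_nhds (0 : E) (div_pos hδ hc0)] with y hy
      rw [mem_ball, dist_zero_right, lt_div_iff₀ hc0] at hy
      have hn : ∀ w ∈ closedBall (0 : W) ‖R₂ y‖, ‖B (R₁ y) + Λ z w‖ ≤ c * ‖y‖ := by
        intro w hw
        rw [mem_closedBall, dist_zero_right] at hw
        have e1 : ‖B (R₁ y)‖ ≤ ‖B‖ * (‖R₁‖ * ‖y‖) :=
          (B.le_opNorm _).trans (by gcongr; exact R₁.le_opNorm y)
        have e2 : ‖Λ z w‖ ≤ ‖Λ z‖ * (‖R₂‖ * ‖y‖) :=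
          ((Λ z).le_opNorm _).trans (by gcongr; exact hw.trans (R₂.le_opNorm y))
        calc ‖B (R₁ y) + Λ z w‖ ≤ ‖B (R₁ y)‖ + ‖Λ z w‖ := norm_add_le _ _
          _ ≤ c * ‖y‖ := by rw [hc]; nlinarith [norm_nonneg y]
      have hm : ∀ w ∈ closedBall (0 : W) ‖R₂ y‖, B (R₁ y) + Λ z w ∈ ball (0 : E) δ := by
        intro w hw
        rw [mem_ball, dist_zero_right]
        linarith [hn w hw, mul_comm c ‖y‖]
      let _ : NormedSpace ℝ W := NormedSpace.restrictScalars ℝ ℂ W
      have h6 := Convex.norm_image_sub_le_of_norm_hasFDerivWithin_le (𝕜 := ℂ)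
        (f := fun w => f (z + (B (R₁ y) + Λ z w)))
        (f' := fun w => (fderiv ℂ f (z + (B (R₁ y) + Λ z w))).comp (Λ z))
        (s := closedBall (0 : W) ‖R₂ y‖) (C := C * (c * ‖y‖) ^ d) (x := 0) (y := R₂ y)
        (fun w hw => by
          refine HasFDerivAt.hasFDerivWithinAt ?_
          exact HasFDerivAt.comp (g := f) w (hb _ (hm w hw)).2.differentiableAt.hasFDerivAt
            (((Λ z).hasFDerivAt.const_add _).const_add _))
        (fun w hw => by
          have h7 := (hb _ (hm w hw)).1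
          rw [norm_pow, norm_norm] at h7
          refine h7.trans ?_
          have := hn w hw
          gcongr)
        (convex_closedBall _ _) (mem_closedBall_self (norm_nonneg _))
        (by rw [mem_closedBall, dist_zero_right])
      rw [hR, map_zero, add_zero, sub_zero] at h6
      refine h6.trans ?_
      rw [norm_pow, norm_norm, mul_pow, pow_succ]
      have := R₂.le_opNorm y
      calc C * (c ^ d * ‖y‖ ^ d) * ‖R₂ y‖ ≤ C * (c ^ d * ‖y‖ ^ d) * (‖R₂‖ * ‖y‖) := by gcongr
        _ = C * c ^ d * ‖R₂‖ * (‖y‖ ^ d * ‖y‖) := by ring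
    have h8 : (fun y => f (z + B (R₁ y))) =O[𝓝 (0 : E)] fun y => ‖y‖ ^ (d + 1) := by
      have h9 : Tendsto R₁ (𝓝 0) (𝓝 0) := by simpa using R₁.continuous.tendsto 0
      have h10 := IsBigO.comp_tendsto (hD.mono hd) h9
      have h11 : (fun y => ‖R₁ y‖ ^ (d + 1)) =O[𝓝 (0 : E)] fun y => ‖y‖ ^ (d + 1) :=
        (R₁.isBigO_id _).norm_norm.pow _
      refine IsBigO.trans ?_ h11
      simpa [Function.comp_def] using h10
    refine (h5.add h8).congr_left fun y => ?_
    rw [sub_add_cancel]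

end Ord

variable {n : ℕ}

theorem ord_of_ja {f : Cn n → ℂ} {z : Cn n} (hf : AnalyticAt ℂ f z) {k : ℕ}
    (hk : ∀ α : Fin n → ℕ, ∑ b, α b < k → ja f z α = 0) : Ord f z k :=
  (ord_iff hf k).2 fun _ hj y => slice_zero (fun α hα => hk α (by omega)) y

/-- **Schwarz lemma of order `k`** -/
theorem schwarzO {f : Cn n → ℂ} {U : Set (Cn n)} (hU : IsOpen U) (hf : DifferentiableOn ℂ f U)
    {z : Cn n} {r m : ℝ} (hr : 0 < r) (hsub : closedBall z (2 * r) ⊆ U)
    (hm : ∀ w ∈ closedBall z (2 * r), ‖f w‖ ≤ m) {k : ℕ} (hk : Ord f z k) {w : Cn n}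
    (hw : w ∈ closedBall z r) : ‖f w‖ ≤ m * (1 / 2) ^ k * 2 := by
  have hzU : z ∈ U := hsub (mem_closedBall_self (by positivity))
  have han : AnalyticAt ℂ f z :=
    Crest.Agent.R266.SCV.analyticOnNhd_of_differentiableOn hU hf z hzU
  have hmem : ∀ ζ ∈ closedBall (0 : ℂ) 2, z + ζ • (w - z) ∈ closedBall z (2 * r) := by
    intro ζ hζ
    rw [mem_closedBall, dist_eq_norm, add_sub_cancel_left, norm_smul]
    rw [mem_closedBall, dist_zero_right] at hζ
    rw [mem_closedBall, dist_eq_norm] at hw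
    gcongr
  have hd : DifferentiableOn ℂ (fun ζ : ℂ => f (z + ζ • (w - z))) (closedBall 0 2) := by
    refine hf.comp (f := fun ζ : ℂ => z + ζ • (w - z)) ?_ fun ζ hζ => hsub (hmem ζ hζ)
    fun_prop
  have h1 := schwarz1 (φ := fun ζ : ℂ => f (z + ζ • (w - z))) (k := k) hd
    (fun ζ hζ => hm _ (hmem ζ hζ)) fun j hj => by
      have h2 : HasFPowerSeriesOnBall (fun ζ : ℂ => f (z + ζ • (w - z)))
          (cauchyPowerSeries (fun ζ : ℂ => f (z + ζ • (w - z))) 0 ((2 : ℝ≥0) : ℝ)) 0
          ((2 : ℝ≥0) : ℝ≥0∞) :=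
        DifferentiableOn.hasFPowerSeriesOnBall (R := 2) (by simpa using hd) (by norm_num)
      exact slice_cps han h2.hasFPowerSeriesAt ((ord_iff han k).1 hk j hj _)
  simpa using h1

/-! ### linear algebra -/

theorem iW_deg {v : FI n → ℂ} {p : ℕ} (hv : ∀ T : FI n, T.card ≠ p → v T = 0) (a : Fin n)
    (T : FI n) (hT : T.card + 1 ≠ p) : ((iW (ep a) : Matrix (FI n) (FI n) ℂ) *ᵥ v) T = 0 := by
  rw [iW, K_mulVec, op]
  refine Finset.sum_eq_zero fun j _ => ?_
  by_cases hj : j ∈ T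
  · rw [cf, if_pos hj]
    simp
  · rw [hv (tog T j) (by rw [tog, if_neg hj, Finset.card_insert_of_notMem hj]; exact hT), mul_zero]

/-- the annihilator of a nonzero vector of degree `p` has dimension at most `p` -/
theorem finrank_ann_le (p : ℕ) : ∀ (v : FI n → ℂ), v ≠ 0 → (∀ T : FI n, T.card ≠ p → v T = 0) →
    ∀ N : Submodule ℂ (Fin n → ℂ), (∀ ξ ∈ N, eW ξ *ᵥ v = 0) → Module.finrank ℂ N ≤ p := by
  induction p using Nat.strong_induction_on with
  | _ p ih =>
    intro v hv hd N hN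
    by_cases h0 : N = ⊥
    · rw [h0, finrank_bot]
      exact Nat.zero_le _
    obtain ⟨ξ, hξ, hξ0⟩ := N.exists_mem_ne_zero_of_ne_bot h0
    obtain ⟨a, ha⟩ : ∃ a, ξ a ≠ 0 := by
      by_contra h
      push Not at h
      exact hξ0 (funext h)
    have hc : ∀ η : Fin n → ℂ, η ∈ N →
        eW η *ᵥ ((iW (ep a) : Matrix (FI n) (FI n) ℂ) *ᵥ v) = η a • v := by
      intro η hη
      have h1 := congrArg (· *ᵥ v) (iW_eW (ep a) η)
      simp only [add_mulVec, ← mulVec_mulVec, hN η hη, mulVec_zero, zero_add, smul_mulVec,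
        one_mulVec] at h1
      rw [h1]
      congr 1
      simp [ep, Pi.single_apply]
    have hv1 : (iW (ep a) : Matrix (FI n) (FI n) ℂ) *ᵥ v ≠ 0 := by
      intro h
      have h1 := hc ξ hξ
      rw [h, mulVec_zero] at h1
      exact hv ((smul_eq_zero.1 h1.symm).resolve_left ha)
    obtain ⟨q, rfl⟩ : ∃ q, p = q + 1 := by
      cases p with
      | zero => exact absurd (funext fun T => iW_deg hd a T (Nat.succ_ne_zero _)) hv1
      | succ q => exact ⟨q, rfl⟩
    set φ : N →ₗ[ℂ] ℂ := (LinearMap.proj a).comp N.subtype with hφ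
    have h2 := ih q (Nat.lt_succ_self q) _ hv1
      (fun T hT => iW_deg hd a T fun h => hT (Nat.succ_injective h))
      ((LinearMap.ker φ).map N.subtype) (by
        rintro η ⟨η', hη', rfl⟩
        have h3 : (η' : Fin n → ℂ) a = 0 := hη'
        rw [Submodule.subtype_apply, hc _ η'.2, h3, zero_smul])
    rw [Submodule.finrank_map_subtype_eq] at h2
    have h4 := LinearMap.finrank_range_add_finrank_ker φ
    have h5 : Module.finrank ℂ (LinearMap.range φ) ≤ 1 := by
      simpa using Submodule.finrank_le (LinearMap.range φ)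
    omega

/-- the matrix of the distribution dual to `v` -/
def mx (v : FI n → ℂ) : Matrix (Fin n) (FI n) ℂ :=
  fun a T => ((eW (ep a) : Matrix (FI n) (FI n) ℂ) *ᵥ v) T

theorem mx_transpose_mulVec (v : FI n → ℂ) (ξ : Fin n → ℂ) : (mx v)ᵀ *ᵥ ξ = eW ξ *ᵥ v := by
  funext T
  rw [eW_eq_sum ξ, sum_mulVec, Finset.sum_apply]
  simp only [smul_mulVec, Pi.smul_apply, smul_eq_mul]
  show ∑ a, mx v a T * ξ a = _
  exact Finset.sum_congr rfl fun a _ => mul_comm _ _

/-- the distribution dual to `v` -/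
def lam (v : FI n → ℂ) : (FI n → ℂ) →L[ℂ] Cn n :=
  (EuclideanSpace.equiv (Fin n) ℂ).symm.toContinuousLinearMap.comp
    (LinearMap.toContinuousLinearMap (mx v).mulVecLin)

theorem lam_apply (v c : FI n → ℂ) (a : Fin n) : lam v c a = (mx v *ᵥ c) a := rfl

/-- `lam` as a linear map -/
def lamL : (FI n → ℂ) →ₗ[ℂ] (FI n → ℂ) →L[ℂ] Cn n where
  toFun := lam
  map_add' v w := by
    ext c a
    simp [lam_apply, mx, mulVec, dotProduct, add_mul, Finset.sum_add_distrib, mul_add]
  map_smul' t v := by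
    ext c a
    have h1 : mx (t • v) = t • mx v := by
      ext b T
      simp [mx, mulVec_smul]
    simp [lam_apply, h1, smul_mulVec]

theorem apply_lam (φ : Cn n →L[ℂ] ℂ) (v c : FI n → ℂ) :
    φ (lam v c) = c ⬝ᵥ (eW (fun a => φ (EuclideanSpace.single a 1)) *ᵥ v) := by
  have h1 : lam v c = ∑ a, (lam v c a) • (EuclideanSpace.single a (1 : ℂ) : Cn n) := by
    ext d
    simp [Finset.sum_apply, Pi.single_apply]
  rw [h1, map_sum, ← mx_transpose_mulVec, dotProduct_mulVec, vecMul_transpose]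
  simp only [map_smul, smul_eq_mul, lam_apply]
  rfl

/-- a transversal of dimension `p` -/
theorem exists_transv {p : ℕ} {v : FI n → ℂ} (hv : v ≠ 0)
    (hd : ∀ T : FI n, T.card ≠ p → v T = 0) :
    ∃ (B : Cn p →L[ℂ] Cn n) (R₁ : Cn n →L[ℂ] Cn p) (R₂ : Cn n →L[ℂ] (FI n → ℂ)),
      ∀ y, B (R₁ y) + lam v (R₂ y) = y := by
  have h1 : Module.finrank ℂ (LinearMap.ker (mx v)ᵀ.mulVecLin) ≤ p :=
    finrank_ann_le p v hv hd _ fun ξ hξ => by
      rw [← mx_transpose_mulVec]
      exact hξ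
  have h2 := LinearMap.finrank_range_add_finrank_ker (mx v)ᵀ.mulVecLin
  have h3 : Module.finrank ℂ (LinearMap.range (mx v)ᵀ.mulVecLin) =
      Module.finrank ℂ (LinearMap.range (mx v).mulVecLin) := Matrix.rank_transpose (mx v)
  have h4 : Module.finrank ℂ (LinearMap.range (lam v).toLinearMap) =
      Module.finrank ℂ (LinearMap.range (mx v).mulVecLin) := by
    have h5 : (lam v).toLinearMap =
        (EuclideanSpace.equiv (Fin n) ℂ).symm.toLinearEquiv.toLinearMap.comp
          (mx v).mulVecLin := rfl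
    rw [h5, LinearMap.range_comp, LinearEquiv.finrank_map_eq]
  obtain ⟨Q, hQ⟩ := (LinearMap.range (lam v).toLinearMap).exists_isCompl
  have h6 := Submodule.finrank_add_eq_of_isCompl hQ
  have h7 : Module.finrank ℂ Q ≤ p := by
    rw [Module.finrank_fin_fun] at h2
    rw [finrank_euclideanSpace_fin] at h6
    omega
  obtain ⟨j, hj⟩ := (finrank_le_iff_exists_linearMap (R := ℂ) (M := Q)
    (M' := Cn p)).1 (by rwa [finrank_euclideanSpace_fin])
  obtain ⟨g, hg⟩ := j.exists_leftInverse_of_injective (LinearMap.ker_eq_bot.2 hj)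
  obtain ⟨s, hs⟩ := (lam v).toLinearMap.rangeRestrict.exists_rightInverse_of_surjective
    (LinearMap.range_rangeRestrict _)
  refine ⟨LinearMap.toContinuousLinearMap (Q.subtype.comp g),
    LinearMap.toContinuousLinearMap (j.comp (Q.projectionOnto _ hQ.symm)),
    LinearMap.toContinuousLinearMap (s.comp (Submodule.projectionOnto _ Q hQ)), fun y => ?_⟩
  have h8 : ∀ u, lam v (s u) = u := fun u => congrArg Subtype.val (LinearMap.congr_fun hs u)
  have h9 : ∀ u, g (j u) = u := fun u => LinearMap.congr_fun hg u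
  simp only [LinearMap.coe_toContinuousLinearMap', LinearMap.comp_apply, h8, h9,
    Submodule.subtype_apply]
  rw [add_comm]
  exact Submodule.projection_add_projection_eq_self hQ y

end

end Crest.Agent.X261.E0.UpL
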