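import Crest.Agent.X261.E0.Defs
import Crest.Agent.X261.E0.UpA

/-!
# X261 (S0399), E0/Up (helper36): the upper bound `h0 (L ^ m) ≤ C m ^ p`

`up_of_closed` : if `L → Ω^p` is nonzero and `(t ds - s dt) ∧ e = 0` for all sections of the same
power of `L`, then `h0 (L ^ m) = O (m ^ p)` (Siegel's argument with jets along transversals).
-/

set_option autoImplicit false
set_option linter.unusedSectionVars false

open Set Filter Topology Complex Metric Asymptotics Matrix

namespace Crest.Agent.X261.E0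

open Crest.Agent.R275.Geo Crest.Agent.R275.Core144
open Crest.Agent.R275.OmT75 (dl dj)
open Crest.Agent.R273.Fock_243 (FI Gam eW eW_add eW_smul)
open Crest.Agent.R273.Sg1_101 Crest.Agent.R273.Sg2_101

noncomputable section

variable {n : ℕ} {M : Type} [TopologicalSpace M] {A : Atl n M}

namespace UpL

theorem an_of_holAt {i : A.ι} {f : M → ℂ} (h : HolAt A i univ f) :
    AnalyticOnNhd ℂ (fun z => f ((A.e i).symm z)) (A.e i).target :=
  Crest.Agent.R266.SCV.analyticOnNhd_of_differentiableOn (A.e i).open_target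
    (DifferentiableOn.mono h fun _ hz => ⟨hz, mem_univ _⟩)

/-- a family of holomorphic vectors whose zero set does not depend on the chart -/
structure Fam {κ : Type} (A : Atl n M) (F : A.ι → M → κ → ℂ) : Prop where
  hol : ∀ i T, HolAt A i univ (fun x => F i x T)
  tr : ∀ i j, ∀ x ∈ (A.e i).source ∩ (A.e j).source, F j x = 0 → F i x = 0

/-- the points where the family does not vanish -/
def Nz {κ : Type} (A : Atl n M) (F : A.ι → M → κ → ℂ) : Set M :=
  {x | ∃ i, x ∈ (A.e i).source ∧ F i x ≠ 0}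

variable {κ : Type} {F : A.ι → M → κ → ℂ}

theorem Fam.ne (h : Fam A F) {x : M} (hx : x ∈ Nz A F) {j : A.ι} (hj : x ∈ (A.e j).source) :
    F j x ≠ 0 := by
  obtain ⟨i, hi, h0⟩ := hx
  exact fun h1 => h0 (h.tr i j x ⟨hi, hj⟩ h1)

theorem Fam.isOpen (h : Fam A F) : IsOpen (Nz A F) := by
  rw [isOpen_iff_mem_nhds]
  rintro x ⟨i, hi, h0⟩
  obtain ⟨T, hT⟩ := Function.ne_iff.1 h0
  have h1 : ContinuousAt (fun z => F i ((A.e i).symm z) T) (A.e i x) :=
    (an_of_holAt (h.hol i T) _ ((A.e i).map_source hi)).continuousAt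
  have h2 : ∀ᶠ z in 𝓝 (A.e i x), F i ((A.e i).symm z) T ≠ 0 :=
    h1.eventually_ne (by rwa [(A.e i).left_inv hi])
  filter_upwards [((A.e i).continuousAt hi).eventually h2, (A.e i).open_source.mem_nhds hi]
    with y hy hy1
  rw [(A.e i).left_inv hy1] at hy
  exact ⟨i, hy1, fun h3 => hy (congrFun h3 T)⟩

theorem Fam.dense [PreconnectedSpace M] (h : Fam A F) (hne : (Nz A F).Nonempty) :
    Dense (Nz A F) := by
  have hopen : IsOpen (closure (Nz A F)) := by
    rw [isOpen_iff_mem_nhds]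
    intro x hx
    obtain ⟨i, hi⟩ := A.cover x
    obtain ⟨r, hr, hball⟩ := Metric.isOpen_iff.1 (A.e i).open_target _ ((A.e i).map_source hi)
    have hNo : IsOpen ((A.e i).source ∩ A.e i ⁻¹' ball (A.e i x) r) :=
      (A.e i).isOpen_inter_preimage isOpen_ball
    have hN : (A.e i).source ∩ A.e i ⁻¹' ball (A.e i x) r ∈ 𝓝 x :=
      hNo.mem_nhds ⟨hi, mem_ball_self hr⟩
    obtain ⟨y, hy, hyZ⟩ := mem_closure_iff_nhds.1 hx _ hN
    obtain ⟨T, hT⟩ := Function.ne_iff.1 (h.ne hyZ hy.1)
    filter_upwards [hN] with y' hy'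
    by_contra hc
    have h1 : ∀ᶠ w in 𝓝 y', w ∉ Nz A F := by
      filter_upwards [isClosed_closure.isOpen_compl.mem_nhds hc] with w hw
      exact fun h2 => hw (subset_closure h2)
    have h2 : ∀ᶠ w in 𝓝 (A.e i y'), F i ((A.e i).symm w) T = 0 := by
      have hcs : ContinuousAt (A.e i).symm (A.e i y') :=
        (A.e i).continuousAt_symm ((A.e i).map_source hy'.1)
      have h3 : ∀ᶠ w in 𝓝 ((A.e i).symm (A.e i y')), w ∉ Nz A F := by
        rwa [(A.e i).left_inv hy'.1]
      filter_upwards [hcs.eventually h3,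
        (A.e i).open_target.mem_nhds ((A.e i).map_source hy'.1)] with w hw hw1
      by_contra h4
      exact hw ⟨i, (A.e i).map_target hw1, fun h5 => h4 (congrFun h5 T)⟩
    have hzero := ((an_of_holAt (h.hol i T)).mono
      hball).eqOn_zero_of_preconnected_of_eventuallyEq_zero (convex_ball _ _).isPreconnected hy'.2 h2
    have h6 := hzero hy.2
    change F i ((A.e i).symm (A.e i y)) T = 0 at h6
    rw [(A.e i).left_inv hy.1] at h6
    exact hT h6
  exact dense_iff_closure_eq.2 (IsClopen.eq_univ ⟨isClosed_closure, hopen⟩ hne.closure)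

theorem fam_tOm {L : LB A} {p : ℕ} {e : A.ι → M → FI n → ℂ} (he : TOm L p e) : Fam A e :=
  ⟨he.hol, fun i j x hx h => by rw [he.tr i j x hx, h, mulVec_zero, smul_zero]⟩

theorem fam_hs {L : LB A} {s : A.ι → M → ℂ} (hs : IsHS L univ s) :
    Fam A (fun i x (_ : Unit) => s i x) :=
  ⟨fun i _ => hs.hol i, fun i j x hx h => by
    funext u
    rw [hs.tr i j x hx (mem_univ _), show s j x = 0 from congrFun h u, mul_zero]
    rfl⟩

/-- a net with centres in a dense set -/
theorem exists_net_dense [CompactSpace M] {D : Set M} (hD : Dense D) :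
    ∃ T : Net A, ∀ l, (A.e (T.i l)).symm (T.z l) ∈ D := by
  choose i hi using A.cover
  have h1 : ∀ x, ∃ r > 0, ∃ y ∈ D, y ∈ (A.e (i x)).source ∧
      A.e (i x) x ∈ ball (A.e (i x) y) r ∧ closedBall (A.e (i x) y) (2 * r) ⊆ (A.e (i x)).target := by
    intro x
    obtain ⟨ε, hε, hs⟩ := nhds_basis_closedBall.mem_iff.1
      ((A.e (i x)).open_target.mem_nhds ((A.e (i x)).map_source (hi x)))
    have hε3 : 0 < ε / 3 := by positivity
    obtain ⟨y, hy, hyD⟩ := hD.inter_open_nonempty _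
      ((A.e (i x)).isOpen_inter_preimage (isOpen_ball (x := A.e (i x) x) (ε := ε / 3)))
      ⟨x, hi x, mem_ball_self hε3⟩
    have h2 : dist (A.e (i x) y) (A.e (i x) x) < ε / 3 := hy.2
    refine ⟨ε / 3, hε3, y, hyD, hy.1, by rwa [mem_ball, dist_comm], ?_⟩
    exact (closedBall_subset_closedBall' (by linarith)).trans hs
  choose r hr y hyD hy hxy hs using h1
  set W : M → Set M := fun x => (A.e (i x)).source ∩ (A.e (i x)) ⁻¹' ball (A.e (i x) (y x)) (r x)
    with hW
  have hWo : ∀ x, IsOpen (W x) := fun x => (A.e (i x)).isOpen_inter_preimage isOpen_ball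
  obtain ⟨t, ht⟩ := isCompact_univ.elim_finite_subcover W hWo fun x _ => mem_iUnion.2
    ⟨x, hi x, hxy x⟩
  refine ⟨⟨t.card, fun l => i (t.equivFin.symm l), fun l => A.e (i (t.equivFin.symm l))
    (y (t.equivFin.symm l)), fun l => r (t.equivFin.symm l), fun l => hr _, fun l => hs _,
    fun x => ?_⟩, fun l => ?_⟩
  · obtain ⟨z, hz⟩ := mem_iUnion.1 (ht (mem_univ x))
    obtain ⟨hzt, hxz⟩ := mem_iUnion.1 hz
    refine ⟨t.equivFin ⟨z, hzt⟩, ?_⟩
    simp only [Equiv.symm_apply_apply]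
    exact ⟨hxz.1, ball_subset_closedBall hxz.2⟩
  · show (A.e _).symm (A.e _ (y _)) ∈ D
    rw [(A.e _).left_inv (hy _)]
    exact hyD _

/-- Siegel's argument -/
theorem eq_zero_of_ord {T : Net A} {L : LB A} {c : ℕ} (hc : Bd T L c) {s : A.ι → M → ℂ}
    (hs : IsHS L univ s)
    (hz : ∀ l, Ord (fun w => s (T.i l) ((A.e (T.i l)).symm w)) (T.z l) (c + 2)) : s = 0 := by
  have h1 : ∀ l, ∃ B : ℝ, ∀ w ∈ closedBall (T.z l) (T.r l),
      ‖s (T.i l) ((A.e (T.i l)).symm w)‖ ≤ B := fun l =>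
    (isCompact_closedBall _ _).exists_bound_of_continuousOn ((hs_diff hs _).continuousOn.mono
      ((closedBall_subset_closedBall (by have := T.rpos l; linarith)).trans (T.sub l)))
  choose B0 hB0 using h1
  set B : ℝ := ∑ l, |B0 l| with hB
  have hBl : ∀ l, B0 l ≤ B := fun l => (le_abs_self _).trans
    (Finset.single_le_sum (f := fun l => |B0 l|) (fun _ _ => abs_nonneg _) (Finset.mem_univ l))
  have h2 : ∀ j : ℕ, ∀ l, ∀ w ∈ closedBall (T.z l) (T.r l),
      ‖s (T.i l) ((A.e (T.i l)).symm w)‖ ≤ B * (1 / 2) ^ j := by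
    intro j
    induction j with
    | zero =>
      intro l w hw
      rw [pow_zero, mul_one]
      exact (hB0 l w hw).trans (hBl l)
    | succ j ih =>
      intro l w hw
      have h3 : ∀ w ∈ closedBall (T.z l) (2 * T.r l),
          ‖s (T.i l) ((A.e (T.i l)).symm w)‖ ≤ 2 ^ c * (B * (1 / 2) ^ j) := by
        intro w hw
        have hx := (A.e (T.i l)).map_target (T.sub l hw)
        obtain ⟨l', hl', hm⟩ := T.cov ((A.e (T.i l)).symm w)
        rw [hs.tr (T.i l) (T.i l') _ ⟨hx, hl'⟩ (mem_univ _), norm_mul]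
        have h4 := ih l' _ hm
        rw [(A.e (T.i l')).left_inv hl'] at h4
        have h5 := hc l l' _ hx (by rw [(A.e (T.i l)).right_inv (T.sub l hw)]; exact hw) hl' hm
        exact mul_le_mul h5 h4 (norm_nonneg _) (by positivity)
      have h6 := schwarzO (A.e (T.i l)).open_target (hs_diff hs _) (T.rpos l) (T.sub l) h3
        (hz l) hw
      refine h6.trans (le_of_eq ?_)
      rw [pow_add, pow_succ]
      have h7 : (2 : ℝ) ^ c * (1 / 2) ^ c = 1 := by rw [← mul_pow]; norm_num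
      calc 2 ^ c * (B * (1 / 2) ^ j) * ((1 / 2) ^ c * (1 / 2) ^ 2) * 2
          = (2 ^ c * (1 / 2) ^ c) * (B * (1 / 2) ^ j * (1 / 2)) := by ring
        _ = B * ((1 / 2) ^ j * (1 / 2)) := by rw [h7]; ring
  have h8 : ∀ l, ∀ w ∈ closedBall (T.z l) (T.r l), s (T.i l) ((A.e (T.i l)).symm w) = 0 := by
    intro l w hw
    have h9 : Tendsto (fun j : ℕ => B * (1 / 2 : ℝ) ^ j) atTop (𝓝 (B * 0)) :=
      (tendsto_pow_atTop_nhds_zero_of_lt_one (by norm_num) (by norm_num)).const_mul B
    rw [mul_zero] at h9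
    exact norm_le_zero_iff.1 (ge_of_tendsto' h9 fun j => h2 j l w hw)
  funext i x
  show s i x = 0
  by_cases hx : x ∈ (A.e i).source
  · obtain ⟨l, hl, hm⟩ := T.cov x
    have h9 := h8 l _ hm
    rw [(A.e (T.i l)).left_inv hl] at h9
    rw [hs.tr i (T.i l) x ⟨hx, hl⟩ (mem_univ _), h9, mul_zero]
  · exact hs.off i x hx

theorem dj_eq {f : Cn n → ℂ} {z : Cn n} (hf : DifferentiableAt ℂ f z) (a : Fin n) :
    dj a f z = fderiv ℂ f z (EuclideanSpace.single a 1) := by
  have h1 : (EuclideanSpace.single a I : Cn n) = I • EuclideanSpace.single a 1 := by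
    ext b
    by_cases h : b = a <;> simp [h]
  rw [dj, hf.fderiv_restrictScalars ℝ]
  simp only [ContinuousLinearMap.coe_restrictScalars', h1, map_smul, smul_eq_mul]
  rw [← mul_assoc, I_mul_I]
  ring

/-- the order of a section at a good point can be read on a transversal -/
theorem ord_sec {e : A.ι → M → FI n → ℂ} {s t : A.ι → M → ℂ} {i : A.ι}
    (he : ∀ T, HolAt A i univ fun x => e i x T) (hs : HolAt A i univ (s i))
    (ht : HolAt A i univ (t i)) (hc : ∀ x ∈ (A.e i).source, eW (Wr A s t i x) *ᵥ e i x = 0)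
    {z : Cn n} (hz : z ∈ (A.e i).target) (ht0 : t i ((A.e i).symm z) ≠ 0) {p : ℕ}
    (B : Cn p →L[ℂ] Cn n) (R₁ : Cn n →L[ℂ] Cn p) (R₂ : Cn n →L[ℂ] (FI n → ℂ))
    (hR : ∀ y, B (R₁ y) + lam (e i ((A.e i).symm z)) (R₂ y) = y) {D : ℕ}
    (hD : Ord (fun w => s i ((A.e i).symm (z + B w))) 0 D) :
    Ord (fun w => s i ((A.e i).symm w)) z D := by
  have h0 : Tendsto (fun y => z + y) (𝓝 (0 : Cn n)) (𝓝 z) := by
    have : Continuous fun y : Cn n => z + y := by fun_prop
    simpa using this.tendsto 0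
  have hΛ : DifferentiableAt ℂ (fun w => lam (e i ((A.e i).symm w))) z :=
    (LinearMap.toContinuousLinearMap (lamL (n := n))).differentiableAt.comp z
      (differentiableAt_pi.2 fun T => (an_of_holAt (he T) z hz).differentiableAt)
  refine ord_of_slice (an_of_holAt hs z hz) (fun w => lam (e i ((A.e i).symm w))) ?_ ?_ B R₁ R₂ hR hD
  · have h1 := (hΛ.hasFDerivAt.isBigO_sub.comp_tendsto h0).norm_right
    simpa [Function.comp_def] using h1
  · set f : Cn n → ℂ := fun w => s i ((A.e i).symm w) with hf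
    set τ : Cn n → ℂ := fun w => t i ((A.e i).symm w) with hτ
    have hτa : AnalyticAt ℂ τ z := an_of_holAt ht z hz
    have h1 : ContinuousAt
        (fun w => (τ w)⁻¹ • (fderiv ℂ τ w).comp (lam (e i ((A.e i).symm w)))) z :=
      (hτa.continuousAt.inv₀ ht0).smul (hτa.fderiv.continuousAt.clm_comp hΛ.continuousAt)
    have h2 := (h1.tendsto.comp h0).isBigO_one ℂ
    have h3 := (isBigO_refl (fun y => f (z + y)) (𝓝 0)).smul h2
    simp only [smul_eq_mul, mul_one] at h3
    refine h3.congr' ?_ EventuallyEq.rfl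
    filter_upwards [h0.eventually ((A.e i).open_target.mem_nhds hz),
      h0.eventually (hτa.continuousAt.eventually_ne ht0)] with y hy hy0
    have h4 := hc _ ((A.e i).map_target hy)
    have h5 : Wr A s t i ((A.e i).symm (z + y)) =
        τ (z + y) • (fun a => fderiv ℂ f (z + y) (EuclideanSpace.single a 1)) +
          (-f (z + y)) • fun a => fderiv ℂ τ (z + y) (EuclideanSpace.single a 1) := by
      funext a
      rw [Wr, dl, dl, (A.e i).right_inv hy, dj_eq (an_of_holAt hs _ hy).differentiableAt,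
        dj_eq (an_of_holAt ht _ hy).differentiableAt]
      simp only [Pi.add_apply, Pi.smul_apply, smul_eq_mul]
      ring
    rw [h5, eW_add, eW_smul, eW_smul, add_mulVec, smul_mulVec, smul_mulVec] at h4
    ext1 c
    have h6 := congrArg (c ⬝ᵥ ·) h4
    simp only [dotProduct_add, dotProduct_smul, dotProduct_zero, ← apply_lam, smul_eq_mul] at h6
    simp only [Function.comp_apply, _root_.smul_apply,
      ContinuousLinearMap.comp_apply, smul_eq_mul]
    field_simp
    linear_combination -h6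

theorem an_slice {L : LB A} {s : A.ι → M → ℂ} (hs : IsHS L univ s) (T : Net A) (l : Fin T.N)
    {p : ℕ} (B : Cn p →L[ℂ] Cn n) :
    AnalyticAt ℂ (fun w => s (T.i l) ((A.e (T.i l)).symm (T.z l + B w))) 0 :=
  AnalyticAt.comp (g := fun w => s (T.i l) ((A.e (T.i l)).symm w)) (f := fun w => T.z l + B w)
    (by simpa using hs_an hs T l) (analyticAt_const.add (B.analyticAt 0))

/-- the Taylor functionals along the transversals -/
def jetB (T : Net A) (L : LB A) {p : ℕ} (B : Fin T.N → Cn p →L[ℂ] Cn n) (k : ℕ) :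
    HS L univ →ₗ[ℂ] (Fin T.N × (Fin p → Fin k) → ℂ) where
  toFun s q := ja (fun w => s.1 (T.i q.1) ((A.e (T.i q.1)).symm (T.z q.1 + B q.1 w))) 0
    fun b => (q.2 b : ℕ)
  map_add' s t := by
    funext q
    exact ja_add (an_slice s.2 T q.1 _) (an_slice t.2 T q.1 _) _
  map_smul' c s := by
    funext q
    exact ja_smul (an_slice s.2 T q.1 _) c _

end UpL

open UpL in
/-- **the upper bound** -/
theorem up_of_closed [CompactSpace M] [T2Space M] [ConnectedSpace M] {L : LB A} {p : ℕ}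
    {e : A.ι → M → FI n → ℂ} (he : TOm L p e) (hne : ∃ i x, e i x ≠ 0) (hc : Closed L e) :
    Up L p := by
  have h1 : ∀ m : ℕ, ∃ G : Set M, IsOpen G ∧ Dense G ∧ ((∀ s, IsHS (L ^ m) univ s → s = 0) ∨
      ∃ t, IsHS (L ^ m) univ t ∧ ∀ x ∈ G, ∀ j, x ∈ (A.e j).source → t j x ≠ 0) := by
    intro m
    by_cases h : ∀ s, IsHS (L ^ m) univ s → s = 0
    · exact ⟨univ, isOpen_univ, dense_univ, Or.inl h⟩
    push Not at h
    obtain ⟨t, ht, h0⟩ := h
    obtain ⟨j, hj⟩ := Function.ne_iff.1 h0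
    obtain ⟨x, hx⟩ := Function.ne_iff.1 hj
    refine ⟨_, (fam_hs ht).isOpen, (fam_hs ht).dense ⟨x, j, ?_, fun h2 => hx (congrFun h2 ())⟩,
      Or.inr ⟨t, ht, fun y hy k hk h2 => (fam_hs ht).ne hy hk (funext fun _ => h2)⟩⟩
    by_contra h2
    exact hx (ht.off j x h2)
  choose G hGo hGd hG using h1
  have h2 : Dense (Nz A e) := by
    obtain ⟨i, x, hx⟩ := hne
    refine (fam_tOm he).dense ⟨x, i, ?_, hx⟩
    by_contra h2
    exact hx (he.off i x h2)
  obtain ⟨T, hT⟩ := exists_net_dense (A := A)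
    ((dense_iInter_of_isOpen hGo hGd).inter_of_isOpen_right h2 (fam_tOm he).isOpen)
  have hz : ∀ l, T.z l ∈ (A.e (T.i l)).target := fun l =>
    T.sub l (mem_closedBall_self (by have := T.rpos l; positivity))
  choose B R₁ R₂ hR using fun l => exists_transv (p := p)
    ((fam_tOm he).ne (hT l).2 ((A.e (T.i l)).map_target (hz l))) (he.deg _ _)
  obtain ⟨c, hB⟩ := exists_Bd T L
  refine ⟨T.N * (c + 2) ^ p, fun m hm => ?_⟩
  have h3 : Function.Injective (jetB T (L ^ m) B (m * c + 2)) := by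
    rw [← LinearMap.ker_eq_bot, LinearMap.ker_eq_bot']
    intro s hs0
    have hs : IsHS (L ^ m) univ s.1 := s.2
    refine Subtype.ext ?_
    rcases hG m with h | ⟨t, ht, h⟩
    · exact h _ hs
    refine eq_zero_of_ord (hB.pow m) hs fun l => ord_sec (he.hol _) (hs.hol _) (ht.hol _)
      (hc m hm _ _ hs ht _) (hz l)
      (h _ (mem_iInter.1 (hT l).1 m) _ ((A.e (T.i l)).map_target (hz l))) (B l) (R₁ l) (R₂ l) (hR l)
      (ord_of_ja (an_slice hs T l _) fun α hα => ?_)
    have hb : ∀ b, α b < m * c + 2 := fun b =>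
      (Finset.single_le_sum (f := α) (fun _ _ => Nat.zero_le _) (Finset.mem_univ b)).trans_lt hα
    exact congrFun hs0 (l, fun b => ⟨α b, hb b⟩)
  have h4 := LinearMap.finrank_le_finrank_of_injective h3
  rw [Module.finrank_pi, Fintype.card_prod, Fintype.card_fin, Fintype.card_fun,
    Fintype.card_fin, Fintype.card_fin] at h4
  have h5 : h0 (L ^ m) ≤ T.N * (c + 2) ^ p * m ^ p := by
    refine h4.trans ?_
    rw [mul_assoc, ← mul_pow]
    gcongr
    nlinarith
  exact_mod_cast h5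

end

end Crest.Agent.X261.E0
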