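import Crest.Agent.X261.E0.ClC
import Crest.Agent.X261.E0.Up
import Crest.Agent.X261.E0.Low

/-!
# X261 (S0399), E0 (helper69): the Bogomolov criterion

* `noBog_of_special` : `Special A → Kah A → NoBog A`
* `NoBog.aInd`, `NoBog.rank`, `NoBog.minor` : user forms
* `not_bog` : the same from `Special`
-/

set_option autoImplicit false
set_option linter.unusedSectionVars false

open Set Filter Topology Complex Matrix

namespace Crest.Agent.X261.E0

open Crest.Agent.R275.Geo Crest.Agent.R275.Core144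
open Crest.Agent.R273.Fock_243 (FI)
open Crest.Agent.R273.Kah_333

noncomputable section

variable {n p m : ℕ} {M : Type} [TopologicalSpace M] [CompactSpace M] [T2Space M]
  {A B : Atl n M} {L : LB B} {e : B.ι → M → FI n → ℂ} {s : Fin (p + 1) → B.ι → M → ℂ}

/-- **Bogomolov**: on a compact Kaehler manifold `h0 (L ^ m) = O (m ^ p)` for `L ⊆ Ω^p` -/
theorem up_of_tom [ConnectedSpace M] [Finite B.ι] (P : Part B) (K : Kah B) (he : TOm L p e)
    (hne : ∃ i x, e i x ≠ 0) : Up L p :=
  up_of_closed he hne (closed P K he)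

theorem noBog_of_special [ConnectedSpace M] (hS : Special A) (K : Kah A) : NoBog A :=
  fun B hB _ ⟨P⟩ p hp L e he hne =>
    hS B hB p hp L e he hne (up_of_tom P (hB.kah K) he hne)

theorem NoBog.aInd (h : NoBog A) (hB : Cmp A B) [Finite B.ι] (P : Part B) (hp : 1 ≤ p)
    (he : TOm L p e) (hne : ∃ i x, e i x ≠ 0) (hm : 0 < m)
    (hs : ∀ k, IsHS (L ^ m) univ (s k)) (hi : AInd B s) : False :=
  h B hB ‹_› ⟨P⟩ p hp L e he hne (low_of_aInd hm s hs hi)

theorem NoBog.rank (h : NoBog A) (hB : Cmp A B) [Finite B.ι] (P : Part B) (hp : 1 ≤ p)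
    (he : TOm L p e) (hne : ∃ i x, e i x ≠ 0) (hm : 0 < m)
    (hs : ∀ k, IsHS (L ^ m) univ (s k)) {i : B.ι} {x : M} (hx : x ∈ (B.e i).source)
    (hli : LinearIndependent ℂ fun k : Fin p => Wr B (s k.succ) (s 0) i x) : False :=
  h B hB ‹_› ⟨P⟩ p hp L e he hne (low_of_rank hm hp s hs hx hli)

/-- vectors with a nonzero minor are independent -/
theorem li_of_minor {v : Fin p → Fin n → ℂ} {c : Fin p → Fin n}
    (h : (Matrix.of fun k l : Fin p => v k (c l)).det ≠ 0) : LinearIndependent ℂ v := by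
  have h1 : LinearIndependent ℂ (Matrix.of fun k l : Fin p => v k (c l)).row :=
    Matrix.linearIndependent_rows_of_det_ne_zero h
  exact LinearIndependent.of_comp (LinearMap.funLeft ℂ ℂ c) h1

theorem NoBog.minor (h : NoBog A) (hB : Cmp A B) [Finite B.ι] (P : Part B) (hp : 1 ≤ p)
    (he : TOm L p e) (hne : ∃ i x, e i x ≠ 0) (hm : 0 < m)
    (hs : ∀ k, IsHS (L ^ m) univ (s k)) {i : B.ι} {x : M} (hx : x ∈ (B.e i).source)
    {c : Fin p → Fin n}
    (hd : (Matrix.of fun k l : Fin p => Wr B (s k.succ) (s 0) i x (c l)).det ≠ 0) : False :=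
  h.rank hB P hp he hne hm hs hx (li_of_minor hd)

theorem not_bog [ConnectedSpace M] (hS : Special A) (hB : Cmp A B) [Finite B.ι] (P : Part B)
    (K : Kah B) (hp : 1 ≤ p) (he : TOm L p e) (hne : ∃ i x, e i x ≠ 0) (hm : 0 < m)
    (hs : ∀ k, IsHS (L ^ m) univ (s k)) {i : B.ι} {x : M} (hx : x ∈ (B.e i).source)
    (hli : LinearIndependent ℂ fun k : Fin p => Wr B (s k.succ) (s 0) i x) : False :=
  hS B hB p hp L e he hne (up_of_tom P K he hne) (low_of_rank hm hp s hs hx hli)

end

end Crest.Agent.X261.E0
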